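import Mathlib.LinearAlgebra.Trace
import Mathlib.LinearAlgebra.Dual.Lemmas
import Mathlib.LinearAlgebra.FiniteDimensional.Lemmas
import Mathlib.RingTheory.Artinian.Module

/-!
# Symmetric nondegenerate forms: adjoints and traces
-/

namespace Vale.Agent.P182.H533

open Module

section form

variable {L V : Type*} [Field L] [AddCommGroup V] [Module L V]

/-- a symmetric nondegenerate bilinear form -/
structure IsForm (q : V →ₗ[L] V →ₗ[L] L) : Prop where
  symm : ∀ u v, q u v = q v u
  nondeg : ∀ u, (∀ v, q u v = 0) → u = 0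

/-- self-adjoint endomorphisms -/
def IsSA (q : V →ₗ[L] V →ₗ[L] L) (S : End L V) : Prop := ∀ u v, q (S u) v = q u (S v)

/-- skew endomorphisms -/
def IsSk (q : V →ₗ[L] V →ₗ[L] L) (X : End L V) : Prop := ∀ u v, q (X u) v = - q u (X v)

theorem IsForm.injective {q : V →ₗ[L] V →ₗ[L] L} (hq : IsForm q) : Function.Injective q := by
  rw [← LinearMap.ker_eq_bot, LinearMap.ker_eq_bot']
  intro u hu
  exact hq.nondeg u fun v => by rw [hu]; rfl

variable [FiniteDimensional L V]

/-- the isomorphism with the dual -/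
noncomputable def IsForm.eqv {q : V →ₗ[L] V →ₗ[L] L} (hq : IsForm q) : V ≃ₗ[L] Dual L V :=
  LinearMap.linearEquivOfInjective q hq.injective (Subspace.dual_finrank_eq).symm

theorem IsForm.eqv_apply {q : V →ₗ[L] V →ₗ[L] L} (hq : IsForm q) (u v : V) :
    hq.eqv u v = q u v := rfl

theorem IsForm.eqv_symm_apply {q : V →ₗ[L] V →ₗ[L] L} (hq : IsForm q) (f : Dual L V) (v : V) :
    q (hq.eqv.symm f) v = f v := by
  rw [← hq.eqv_apply, LinearEquiv.apply_symm_apply]

/-- every bilinear form is given by an endomorphism -/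
theorem IsForm.exists_end {q : V →ₗ[L] V →ₗ[L] L} (hq : IsForm q) (C : V →ₗ[L] V →ₗ[L] L) :
    ∃ D : End L V, ∀ u v, q (D u) v = C u v :=
  ⟨hq.eqv.symm.toLinearMap ∘ₗ C, fun u v => hq.eqv_symm_apply (C u) v⟩

omit [FiniteDimensional L V] in
theorem IsForm.ext {q : V →ₗ[L] V →ₗ[L] L} (hq : IsForm q) {u v : V}
    (h : ∀ w, q u w = q v w) : u = v := by
  rw [← sub_eq_zero]
  exact hq.nondeg _ fun w => by rw [map_sub, LinearMap.sub_apply, h, sub_self]

/-- adjoint endomorphisms have the same trace -/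
theorem IsForm.trace_adj {q : V →ₗ[L] V →ₗ[L] L} (hq : IsForm q) {f g : End L V}
    (h : ∀ u v, q (f u) v = q u (g v)) : LinearMap.trace L V f = LinearMap.trace L V g := by
  have h1 : f = hq.eqv.symm.conj (Module.Dual.transpose (R := L) g) := by
    ext u
    rw [LinearEquiv.conj_apply_apply, LinearEquiv.symm_symm]
    apply hq.ext
    intro w
    rw [h, hq.eqv_symm_apply]
    rfl
  rw [h1, LinearMap.trace_conj', LinearMap.trace_transpose']

theorem trace_mul_sum {ι : Type*} [Fintype ι] {q : V →ₗ[L] V →ₗ[L] L} (hq : IsForm q)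
    (h2 : (2 : L) ≠ 0) {A S : ι → End L V} {D : End L V} (hA : ∀ s, IsSk q (A s))
    (hS : ∀ s, IsSA q (S s)) (hD : IsSA q D) (h : ∑ s, (A s * S s - S s * A s) = 0) :
    ∑ s, LinearMap.trace L V (A s * S s * D) = 0 := by
  have h1 : ∀ s, LinearMap.trace L V (A s * S s * D) = - LinearMap.trace L V (S s * A s * D) := by
    intro s
    have : LinearMap.trace L V (A s * S s * D) = LinearMap.trace L V (-(D * (S s * A s))) := by
      apply hq.trace_adj
      intro u v
      simp only [Module.End.mul_apply, LinearMap.neg_apply, map_neg]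
      rw [hA s, hS s, hD]
    rw [this, map_neg, LinearMap.trace_mul_comm, mul_assoc]
  have h3 : (2 : L) * ∑ s, LinearMap.trace L V (A s * S s * D) = 0 := by
    rw [two_mul]
    nth_rw 2 [Finset.sum_congr rfl fun s _ => h1 s]
    rw [← Finset.sum_add_distrib]
    have : ∀ s, LinearMap.trace L V (A s * S s * D) + - LinearMap.trace L V (S s * A s * D) =
        LinearMap.trace L V ((A s * S s - S s * A s) * D) := by
      intro s
      rw [sub_mul, map_sub, sub_eq_add_neg]
    rw [Finset.sum_congr rfl fun s _ => this s, ← map_sum, ← Finset.sum_mul, h, zero_mul, map_zero]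
  exact (mul_eq_zero.mp h3).resolve_left h2

/-- **The abstract division lemma.** -/
theorem exists_quot {ι : Type*} [Fintype ι] {q : V →ₗ[L] V →ₗ[L] L} (hq : IsForm q)
    {S R : ι → End L V} (hS : ∀ s, IsSA q (S s)) (hspan : ⨆ s, LinearMap.range (S s) = ⊤)
    (hR : ∀ a b v w, q v (R a (S b w)) = q (R b (S a v)) w) :
    ∃ D : End L V, IsSA q D ∧ ∀ a, R a = S a * D := by
  classical
  -- a right inverse
  let σ : (ι → V) →ₗ[L] V := ∑ a, S a ∘ₗ LinearMap.proj a
  have hσ : ∀ w, σ w = ∑ a, S a (w a) := fun w => by simp [σ]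
  have hsurj : LinearMap.range σ = ⊤ := by
    rw [eq_top_iff, ← hspan]
    refine iSup_le fun a => ?_
    rintro _ ⟨x, rfl⟩
    refine ⟨Pi.single a x, ?_⟩
    rw [hσ, Finset.sum_eq_single a]
    · rw [Pi.single_eq_same]
    · intro b _ hb
      rw [Pi.single_eq_of_ne hb, map_zero]
    · intro h; exact absurd (Finset.mem_univ _) h
  obtain ⟨ρ, hρ⟩ := LinearMap.exists_rightInverse_of_surjective σ hsurj
  have hρ' : ∀ v, ∑ a, S a (ρ v a) = v := by
    intro v
    rw [← hσ]
    exact LinearMap.congr_fun hρ v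
  obtain ⟨D, hD⟩ := hq.exists_end
    (∑ a, (q ∘ₗ R a).compl₂ (LinearMap.proj a ∘ₗ ρ) : V →ₗ[L] V →ₗ[L] L)
  have hD' : ∀ u v, q (D u) v = ∑ a, q (R a u) (ρ v a) := by
    intro u v
    rw [hD]
    simp [LinearMap.sum_apply, LinearMap.compl₂_apply]
  have hSD : ∀ a v, S a (D v) = R a v := by
    intro c v
    apply hq.ext
    intro w
    rw [hS c, hD']
    have e1 : ∀ a, q (R a v) (ρ (S c w) a) = ∑ b, q (R b (S a (ρ (S c w) a))) (ρ v b) := by
      intro a
      conv_lhs => rw [← hρ' v]
      rw [map_sum, map_sum, LinearMap.sum_apply]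
      refine Finset.sum_congr rfl fun b _ => ?_
      rw [hq.symm, hR]
    rw [Finset.sum_congr rfl fun a _ => e1 a, Finset.sum_comm]
    have e2 : ∀ b, ∑ a, q (R b (S a (ρ (S c w) a))) (ρ v b) = q (R c (S b (ρ v b))) w := by
      intro b
      rw [← LinearMap.sum_apply, ← map_sum, ← map_sum, hρ', hq.symm, hR]
    rw [Finset.sum_congr rfl fun b _ => e2 b, ← LinearMap.sum_apply, ← map_sum, ← map_sum, hρ']
  refine ⟨D, ?_, fun a => LinearMap.ext fun v => (hSD a v).symm⟩
  intro u v
  rw [← hρ' v, map_sum, map_sum, map_sum]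
  refine Finset.sum_congr rfl fun a _ => ?_
  rw [← hS a, hSD]
  conv_lhs => rw [← hρ' u]
  conv_rhs => rw [← hρ' u]
  rw [map_sum, map_sum, LinearMap.sum_apply, map_sum, LinearMap.sum_apply]
  refine Finset.sum_congr rfl fun b _ => ?_
  rw [hq.symm, hR, hS b, hSD, hq.symm]

end form

end Vale.Agent.P182.H533
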