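import Vale.Agent.P182.H533.Conn

/-!
# Compatible families: the operators `D_t` on the core
-/

namespace Vale.Agent.P182.H533

open Module Matrix

section compat

variable {L V ι : Type*} [Field L] [AddCommGroup V] [Module L V]

/-- a family of self-adjoint operators compatible with `S` -/
structure Compat (q : V →ₗ[L] V →ₗ[L] L) (S Ψ : ι → End L V) : Prop where
  sa : ∀ a, IsSA q (Ψ a)
  rel : ∀ a b v, Ψ b (S a v) = S b (Ψ a v)

namespace Compat

variable {q : V →ₗ[L] V →ₗ[L] L} {S Ψ Φ : ι → End L V}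

theorem map_words (h : Compat q S Ψ) (r : ℕ) : ∀ a, ∀ v ∈ words S r, Ψ a v ∈ words S r := by
  induction r with
  | zero => intro a v _; trivial
  | succ r ih =>
    intro a v hv
    refine Submodule.iSup_induction (fun s => (words S r).map (S s))
      (motive := fun x => Ψ a x ∈ words S (r + 1)) hv ?_ ?_ ?_
    · rintro s _ ⟨w, hw, rfl⟩
      rw [h.rel]
      exact Submodule.mem_iSup_of_mem a (Submodule.mem_map_of_mem (ih s w hw))
    · rw [map_zero]; exact Submodule.zero_mem _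
    · intro x y hx hy
      rw [map_add]; exact Submodule.add_mem _ hx hy

theorem map_W (h : Compat q S Ψ) (C : Core q S) (a : ι) {v : V} (hv : v ∈ C.W) : Ψ a v ∈ C.W := by
  rw [C.hN] at hv ⊢
  exact h.map_words _ a v hv

theorem map_perp (h : Compat q S Ψ) (C : Core q S) (a : ι) {v : V} (hv : v ∈ perp q C.W) :
    Ψ a v ∈ perp q C.W := fun w hw => by rw [h.sa a, hv _ (h.map_W C a hw)]

theorem map_I (h : Compat q S Ψ) (C : Core q S) (a : ι) {v : V} (hv : v ∈ C.I) :
    Ψ a v ∈ C.I := ⟨h.map_W C a hv.1, h.map_perp C a hv.2⟩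

theorem self (hS : ∀ s, IsSA q (S s)) : Compat q S S := ⟨hS, fun _ _ _ => rfl⟩

end Compat

namespace Core

variable {q : V →ₗ[L] V →ₗ[L] L} {S Ψ Φ : ι → End L V} (C : Core q S) [FiniteDimensional L V]

/-- the compression to the core -/
noncomputable def res (hq : IsForm q) (f : End L V) : End L C.V1 :=
  (C.P hq ∘ₗ f) ∘ₗ C.V1.subtype

theorem res_apply (hq : IsForm q) (f : End L V) (v : C.V1) : C.res hq f v = C.P hq (f v) := rfl

theorem res_S (hq : IsForm q) (s : ι) : C.res hq (S s) = C.S1 hq s := rfl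

theorem res_add (hq : IsForm q) (f g : End L V) : C.res hq (f + g) = C.res hq f + C.res hq g := by
  ext v
  rw [res_apply, LinearMap.add_apply, map_add]
  rfl

theorem res_smul (hq : IsForm q) (c : L) (f : End L V) : C.res hq (c • f) = c • C.res hq f := by
  ext v
  rw [res_apply, LinearMap.smul_apply, map_smul]
  rfl

theorem res_SA (hq : IsForm q) {f : End L V} (hf : IsSA q f) : IsSA C.q1 (C.res hq f) := by
  intro u v
  rw [res_apply, res_apply, q_P, hf, (C.isForm hq).symm, q_P, hq.symm]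

theorem res_mul (hq : IsForm q) {f g : End L V} (hf : ∀ v ∈ perp q C.W, f v ∈ perp q C.W)
    (hg : ∀ w ∈ C.W, g w ∈ perp q C.I) : C.res hq (f * g) = C.res hq f * C.res hq g := by
  ext v
  congr 1
  show C.P hq (f (g v)) = C.P hq (f (C.P hq (g v)))
  have h1 := C.P_eq_zero hq (hf _ (C.sub_P_mem hq (hg _ (C.V1_le v.2))))
  rwa [map_sub, map_sub, sub_eq_zero] at h1

/-- an operator annihilated from both sides is zero -/
theorem eq_zero_of_S1 (hq : IsForm q) (hS : ∀ s, IsSA q (S s)) {X : End L C.V1}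
    (h : ∀ a b, C.S1 hq a * X * C.S1 hq b = 0) : X = 0 := by
  have h1 : ∀ a v, C.S1 hq a (X v) = 0 := by
    intro a v
    have hv : v ∈ ⨆ s, LinearMap.range (C.S1 hq s) := by rw [C.S1_span hq hS]; trivial
    refine Submodule.iSup_induction (fun s => LinearMap.range (C.S1 hq s))
      (motive := fun x => C.S1 hq a (X x) = 0) hv ?_ ?_ ?_
    · rintro s _ ⟨w, rfl⟩
      exact LinearMap.congr_fun (h a s) w
    · rw [map_zero, map_zero]
    · intro x y hx hy
      rw [map_add, map_add, hx, hy, add_zero]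
  ext v
  congr 1
  apply (C.isForm hq).nondeg
  intro w
  have hw : w ∈ ⨆ s, LinearMap.range (C.S1 hq s) := by rw [C.S1_span hq hS]; trivial
  refine Submodule.iSup_induction (fun s => LinearMap.range (C.S1 hq s))
      (motive := fun x => C.q1 (X v) x = 0) hw ?_ ?_ ?_
  · rintro s _ ⟨w, rfl⟩
    rw [← C.S1_SA hq hS s, h1, map_zero, LinearMap.zero_apply]
  · rw [map_zero]
  · intro x y hx hy
    rw [map_add, hx, hy, add_zero]

theorem iInf_ker (hq : IsForm q) (hS : ∀ s, IsSA q (S s)) :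
    ⨅ s, LinearMap.ker (C.S1 hq s) = ⊥ := by
  rw [eq_bot_iff]
  intro v hv
  rw [Submodule.mem_bot]
  apply (C.isForm hq).nondeg
  intro w
  have hw : w ∈ ⨆ s, LinearMap.range (C.S1 hq s) := by rw [C.S1_span hq hS]; trivial
  refine Submodule.iSup_induction (fun s => LinearMap.range (C.S1 hq s))
      (motive := fun x => C.q1 v x = 0) hw ?_ ?_ ?_
  · rintro s _ ⟨w, rfl⟩
    rw [← C.S1_SA hq hS s, LinearMap.mem_ker.mp (Submodule.mem_iInf _ |>.mp hv s), map_zero,
      LinearMap.zero_apply]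
  · rw [map_zero]
  · intro x y hx hy
    rw [map_add, hx, hy, add_zero]

/-- **The operator of a compatible family.** -/
theorem exists_D [Fintype ι] (hq : IsForm q) (hS : ∀ s, IsSA q (S s)) (h : Compat q S Ψ) :
    ∃ D : End L C.V1, IsSA C.q1 D ∧ (∀ a, C.res hq (Ψ a) = C.S1 hq a * D) ∧
      ∀ a, C.res hq (Ψ a) = D * C.S1 hq a := by
  have e1 : ∀ a b, C.res hq (Ψ b * S a) = C.res hq (Ψ b) * C.S1 hq a := fun a b =>
    C.res_mul hq (fun v hv => h.map_perp C b hv) fun w hw => C.W_le_perp hq (C.map_W hw)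
  have e2 : ∀ a b, C.res hq (S b * Ψ a) = C.S1 hq b * C.res hq (Ψ a) := fun a b =>
    C.res_mul hq (fun v hv => C.map_perp hS hv) fun w hw => C.W_le_perp hq (h.map_W C a hw)
  have e3 : ∀ a b, C.res hq (Ψ b) * C.S1 hq a = C.S1 hq b * C.res hq (Ψ a) := by
    intro a b
    rw [← e1, ← e2]
    congr 1
    ext v
    exact h.rel a b v
  obtain ⟨D, hD, hRD⟩ := exists_quot (C.isForm hq) (R := fun a => C.res hq (Ψ a))
    (C.S1_SA hq hS) (C.S1_span hq hS) (by
      intro a b v w
      have := LinearMap.congr_fun (e3 b a) w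
      rw [Module.End.mul_apply, Module.End.mul_apply] at this
      rw [this, ← C.S1_SA hq hS, ← C.res_SA hq (h.sa b)])
  refine ⟨D, hD, hRD, fun a => ?_⟩
  ext v
  congr 1
  apply (C.isForm hq).ext
  intro w
  rw [C.res_SA hq (h.sa a), hRD, Module.End.mul_apply, Module.End.mul_apply, ← C.S1_SA hq hS, hD]

/-- the operators of two commuting families commute -/
theorem D_comm (hq : IsForm q) (hS : ∀ s, IsSA q (S s)) (hΨ : Compat q S Ψ) (hΦ : Compat q S Φ)
    (h : ∀ a b v, Ψ b (Φ a v) = Φ b (Ψ a v)) {D D' : End L C.V1}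
    (hD : ∀ a, C.res hq (Ψ a) = C.S1 hq a * D) (hD2 : ∀ a, C.res hq (Ψ a) = D * C.S1 hq a)
    (hD' : ∀ a, C.res hq (Φ a) = C.S1 hq a * D') (hD'2 : ∀ a, C.res hq (Φ a) = D' * C.S1 hq a) :
    D * D' = D' * D := by
  rw [← sub_eq_zero]
  apply C.eq_zero_of_S1 hq hS
  intro b a
  have e1 : C.res hq (Ψ b * Φ a) = C.res hq (Ψ b) * C.res hq (Φ a) :=
    C.res_mul hq (fun v hv => hΨ.map_perp C b hv) fun w hw => C.W_le_perp hq (hΦ.map_W C a hw)
  have e2 : C.res hq (Φ b * Ψ a) = C.res hq (Φ b) * C.res hq (Ψ a) :=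
    C.res_mul hq (fun v hv => hΦ.map_perp C b hv) fun w hw => C.W_le_perp hq (hΨ.map_W C a hw)
  have e3 : Ψ b * Φ a = Φ b * Ψ a := by
    ext v
    exact h a b v
  rw [e3, e2, hD b, hD'2 a, hD' b, hD2 a] at e1
  rw [mul_sub, sub_mul, sub_eq_zero]
  simp only [← mul_assoc] at e1 ⊢
  exact e1.symm

/-- uniqueness of the operator -/
theorem D_unique (hq : IsForm q) (hS : ∀ s, IsSA q (S s)) {D D' : End L C.V1}
    (h : ∀ a, C.S1 hq a * D = C.S1 hq a * D') : D = D' := by
  rw [← sub_eq_zero]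
  apply C.eq_zero_of_S1 hq hS
  intro a b
  rw [mul_sub, h, sub_self, zero_mul]

end Core

end compat

end Vale.Agent.P182.H533
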