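import Vale.Agent.P182.H533.Compat

/-!
# The Hessian lemma on the core, with the deformation of the point
-/

namespace Vale.Agent.P182.H533

open Module Matrix

section conn2

variable {L V J ι : Type*} [Field L] [AddCommGroup V] [Module L V] [Fintype J] [DecidableEq J]
  [Fintype ι] [DecidableEq ι] (arm : J → ι)

/-- **The derivative of the operators.** -/
theorem delta_Sop' {q : V →ₗ[L] V →ₗ[L] L} (T : (J → L) →ₗ[L] V) {Ω : Matrix J J L} (hΩ : Ωᵀ = -Ω) {X : ι → End L V}
    (hX : ∀ s, IsSk q (X s)) {η : Matrix J J L} (hη : ηᵀ = -η)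
    (hT : ∀ x, T (η *ᵥ x) + ∑ s, X s (T (Gm arm Ω s *ᵥ x)) = 0) (c : Conn q)
    {R : (J → L) →ₗ[L] V} (h1 : ∀ j, c.δ (T (Pi.single j 1)) = X (arm j) (T (Pi.single j 1)) + R (Pi.single j 1))
    (h2 : ∀ i j, c.d (Ω i j) = η i j) (s : ι) (v : V) :
    c.δ (Sop arm q T Ω s v) =
      Sop arm q T Ω s (c.δ v) + (X s (Sop arm q T Ω s v) - Sop arm q T Ω s (X s v)) +
        (opr q R (Gm arm Ω s) T v + opr q T (Gm arm Ω s) R v) := by
  let dv : (J → L) → J → L := fun x j => c.d (x j)
  have e1 : ∀ x, c.δ (T x) = T (dv x) + (∑ r, X r (T (Em arm r *ᵥ x)) + R x) := by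
    intro x
    have hx : ∀ x : J → L, x = ∑ j, x j • Pi.single j (1 : L) := by
      intro x
      funext k
      simp [Finset.sum_apply, Pi.single_apply]
    conv_lhs => rw [hx x]
    rw [map_sum, map_sum]
    have e2 : ∀ r, X r (T (Em arm r *ᵥ x)) =
        ∑ j, (if arm j = r then 1 else 0) • x j • X r (T (Pi.single j 1)) := by
      intro r
      rw [hx (Em arm r *ᵥ x), map_sum, map_sum]
      refine Finset.sum_congr rfl fun j _ => ?_
      rw [map_smul, map_smul, Em, Matrix.mulVec_diagonal]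
      split_ifs <;> simp
    rw [Finset.sum_congr rfl fun r _ => e2 r, Finset.sum_comm]
    conv_rhs => rw [hx (dv x)]
    have e3 : R x = ∑ j, x j • R (Pi.single j 1) := by
      conv_lhs => rw [hx x]
      rw [map_sum]
      exact Finset.sum_congr rfl fun j _ => map_smul _ _ _
    rw [map_sum, e3, ← Finset.sum_add_distrib, ← Finset.sum_add_distrib]
    refine Finset.sum_congr rfl fun j _ => ?_
    rw [map_smul T, c.smul, h1, map_smul T]
    simp [dv]
  have e3 : ∀ v, dv (ad q T v) = ad q T (c.δ v) - ∑ r, Em arm r *ᵥ ad q T (X r v) + ad q R v := by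
    intro v
    funext k
    show c.d (ad q T v k) = _
    rw [ad_apply, c.metric, h1, map_add, LinearMap.add_apply, hX, Pi.add_apply, Pi.sub_apply,
      ad_apply, Finset.sum_apply, Finset.sum_eq_single (arm k)]
    · rw [Em, Matrix.mulVec_diagonal, if_pos rfl, one_mul, ad_apply, ad_apply]
      ring
    · intro r _ hr
      rw [Em, Matrix.mulVec_diagonal, if_neg (Ne.symm hr), zero_mul]
    · intro h; exact absurd (Finset.mem_univ _) h
  have e4 : ∀ x, dv (Gm arm Ω s *ᵥ x) = Gm arm Ω s *ᵥ dv x + Gm arm η s *ᵥ x := by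
    intro x
    funext k
    show c.d ((Gm arm Ω s *ᵥ x) k) = _
    rw [Pi.add_apply, Matrix.mulVec, Matrix.mulVec, Matrix.mulVec, dotProduct, dotProduct,
      dotProduct, map_sum, ← Finset.sum_add_distrib]
    refine Finset.sum_congr rfl fun j _ => ?_
    rw [c.leib, Gm_apply, Gm_apply, c.leib, h2]
    have h0 : c.d ((if arm k = s then 1 else 0) - if arm j = s then 1 else 0) = 0 := by
      have h1' : c.d 1 = 0 := by
        have := c.leib 1 1
        rw [mul_one, mul_one, one_mul] at this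
        simpa using this
      rw [map_sub]
      split_ifs <;> simp [h1']
    rw [h0]
    show _ = _ * c.d (x j) + _
    ring
  -- adjoint of `hT`
  have e5 : ∀ v, η *ᵥ ad q T v = - ∑ r, Gm arm Ω r *ᵥ ad q T (X r v) := by
    intro v
    have h3 : ∀ x, x ⬝ᵥ (η *ᵥ ad q T v) = x ⬝ᵥ (- ∑ r, Gm arm Ω r *ᵥ ad q T (X r v)) := by
      intro x
      have h4 : x ⬝ᵥ (η *ᵥ ad q T v) = - ((η *ᵥ x) ⬝ᵥ ad q T v) := by
        rw [dotProduct_mulVec, ← Matrix.mulVec_transpose, hη, Matrix.neg_mulVec, neg_dotProduct]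
      have h5 : T (η *ᵥ x) = - ∑ s, X s (T (Gm arm Ω s *ᵥ x)) := eq_neg_of_add_eq_zero_left (hT x)
      rw [h4, ← q_T, h5, map_neg, LinearMap.neg_apply, neg_neg, map_sum, LinearMap.sum_apply,
        dotProduct_neg, dotProduct_sum, ← Finset.sum_neg_distrib]
      refine Finset.sum_congr rfl fun r _ => ?_
      rw [hX, q_T, dotProduct_mulVec x, ← Matrix.mulVec_transpose, Gm_transpose arm hΩ]
    funext j
    have := h3 (Pi.single j 1)
    rwa [single_one_dotProduct, single_one_dotProduct] at this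
  show c.δ (T (Gm arm Ω s *ᵥ ad q T v)) = _
  rw [e1, e4, e3]
  have e6 : Gm arm η s *ᵥ ad q T v =
      - ∑ r, Em arm s *ᵥ (Gm arm Ω r *ᵥ ad q T (X r v)) - η *ᵥ (Em arm s *ᵥ ad q T v) := by
    rw [Gm, Matrix.sub_mulVec, ← Matrix.mulVec_mulVec, ← Matrix.mulVec_mulVec, e5,
      Matrix.mulVec_neg]
    congr 2
    exact map_sum (Matrix.mulVecLin (Em arm s)) _ _
  rw [e6, map_add, map_sub, map_neg, eq_neg_of_add_eq_zero_left (hT (Em arm s *ᵥ ad q T v))]
  have e7 : ∀ r, X r (T (Em arm r *ᵥ (Gm arm Ω s *ᵥ ad q T v))) +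
      X r (T (Gm arm Ω r *ᵥ (Em arm s *ᵥ ad q T v))) =
        if r = s then X s (Sop arm q T Ω s v) else 0 := by
    intro r
    rw [← map_add, ← map_add, Matrix.mulVec_mulVec, Matrix.mulVec_mulVec, ← Matrix.add_mulVec,
      Em_Gm]
    by_cases hr : r = s
    · subst hr
      rw [if_pos rfl, if_pos rfl]; rfl
    · rw [if_neg hr, if_neg hr, Matrix.zero_mulVec, map_zero, map_zero]
  have e8 : ∀ r, T (Gm arm Ω s *ᵥ (Em arm r *ᵥ ad q T (X r v))) +
      T (Em arm s *ᵥ (Gm arm Ω r *ᵥ ad q T (X r v))) =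
        if r = s then Sop arm q T Ω s (X s v) else 0 := by
    intro r
    rw [← map_add, Matrix.mulVec_mulVec, Matrix.mulVec_mulVec, ← Matrix.add_mulVec, Gm_Em]
    by_cases hr : r = s
    · subst hr
      rw [if_pos rfl, if_pos rfl]; rfl
    · rw [if_neg hr, if_neg hr, Matrix.zero_mulVec, map_zero]
  have e9 := Finset.sum_congr rfl fun r (_ : r ∈ Finset.univ) => e7 r
  have e10 := Finset.sum_congr rfl fun r (_ : r ∈ Finset.univ) => e8 r
  rw [Finset.sum_add_distrib, Finset.sum_ite_eq' Finset.univ s, if_pos (Finset.mem_univ _)] at e9 e10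
  rw [← e9, ← e10]
  have e11 : Gm arm Ω s *ᵥ ∑ r, Em arm r *ᵥ ad q T (X r v) =
      ∑ r, Gm arm Ω s *ᵥ (Em arm r *ᵥ ad q T (X r v)) :=
    map_sum (Matrix.mulVecLin (Gm arm Ω s)) _ _
  rw [Matrix.mulVec_add, map_add, Matrix.mulVec_sub, map_sub, e11, map_sum, map_sum]
  show T (Gm arm Ω s *ᵥ ad q T (c.δ v)) - _ + T (Gm arm Ω s *ᵥ ad q R v) + _ + (_ +
    R (Gm arm Ω s *ᵥ ad q T v)) = T (Gm arm Ω s *ᵥ ad q T (c.δ v)) + _ +
      (R (Gm arm Ω s *ᵥ ad q T v) + T (Gm arm Ω s *ᵥ ad q R v))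
  abel

omit [Fintype J] [DecidableEq J] [Fintype ι] [DecidableEq ι] in
/-- **The connection on the core.** -/
theorem Core.exists_conn' [FiniteDimensional L V] {q : V →ₗ[L] V →ₗ[L] L} (hq : IsForm q)
    {S : ι → End L V} (hS : ∀ s, IsSA q (S s)) (C : Core q S) {X : ι → End L V}
    (hX : ∀ s, IsSk q (X s)) (hXI : ∀ s, ∀ i ∈ C.I, X s i ∈ C.I) {A : ι → End L C.V1}
    (hXA : ∀ s, ∀ v : C.V1, C.P hq (X s v) = A s v) (c : Conn q)
    {M : ι → End L V} (hM : ∀ s, ∀ w ∈ C.W, M s w ∈ perp q C.I)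
    (hc : ∀ s v, c.δ (S s v) = S s (c.δ v) + (X s (S s v) - S s (X s v)) + M s v) :
    ∃ c1 : Conn C.q1, c1.d = c.d ∧ ∀ s v, c1.δ (C.S1 hq s v) = C.S1 hq s (c1.δ v) +
      (A s (C.S1 hq s v) - C.S1 hq s (A s v)) + C.res hq (M s) v := by
  have hXp : ∀ s, ∀ v ∈ perp q C.I, X s v ∈ perp q C.I := by
    intro s v hv i hi
    rw [hX, hv _ (hXI s i hi), neg_zero]
  have hSp : ∀ s, ∀ v ∈ perp q C.I, S s v ∈ perp q C.I := by
    intro s v hv i hi
    rw [hS s, hv _ (C.map_I hS hi)]
  have hWp := C.W_le_perp hq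
  have claim : ∀ r : ℕ, ∀ w ∈ C.W, c.δ w ∈ perp q C.I ⊔ words S r := by
    intro r
    induction r with
    | zero => intro w _; exact Submodule.mem_sup_right trivial
    | succ r ih =>
      intro w hw
      rw [← C.hW] at hw
      refine Submodule.iSup_induction (fun s => C.W.map (S s))
        (motive := fun x => c.δ x ∈ perp q C.I ⊔ words S (r + 1)) hw ?_ ?_ ?_
      · rintro s _ ⟨w, hw, rfl⟩
        obtain ⟨a, ha, b, hb, hab⟩ := Submodule.mem_sup.mp (ih w hw)
        rw [hc, ← hab, map_add]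
        refine Submodule.add_mem _ (Submodule.add_mem _ (Submodule.add_mem _
          (Submodule.mem_sup_left (hSp s a ha))
          (Submodule.mem_sup_right (Submodule.mem_iSup_of_mem s
            (Submodule.mem_map_of_mem hb)))) (Submodule.mem_sup_left (Submodule.sub_mem _ ?_ ?_)))
          (Submodule.mem_sup_left (hM s w hw))
        · exact hXp s _ (hWp (C.map_W hw))
        · exact hSp s _ (hXp s _ (hWp hw))
      · rw [map_zero]; exact Submodule.zero_mem _
      · intro x y hx hy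
        rw [map_add]; exact Submodule.add_mem _ hx hy
  have hδW : ∀ w ∈ C.W, c.δ w ∈ perp q C.I := by
    intro w hw
    have h1 := claim C.N w hw
    rwa [← C.hN, sup_eq_left.mpr hWp] at h1
  have hδI : ∀ i ∈ C.I, c.δ i ∈ perp q C.W := by
    intro i hi w hw
    have h1 := c.metric i w
    rw [hi.2 w hw, map_zero, hq.symm i, hδW w hw i hi, add_zero] at h1
    exact h1.symm
  refine ⟨{ d := c.d
            δ :=
              { toFun := fun v => C.P hq (c.δ v)
                map_zero' := by rw [Submodule.coe_zero, map_zero, map_zero]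
                map_add' := fun u v => by rw [Submodule.coe_add, map_add, map_add] }
            leib := c.leib
            smul := ?_
            metric := ?_ }, rfl, ?_⟩
  · intro a v
    show C.P hq (c.δ (a • (v : V))) = _
    rw [c.smul, map_add, map_smul, map_smul, C.P_coe]
    rfl
  · intro u v
    show c.d (q u v) = C.q1 (C.P hq (c.δ u)) v + C.q1 u (C.P hq (c.δ v))
    rw [(C.isForm hq).symm u, C.q_P, C.q_P, c.metric, hq.symm (u : V)]
  · intro s v
    show C.P hq (c.δ (C.S1 hq s v)) = C.S1 hq s (C.P hq (c.δ v)) + _ + _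
    have hi : S s v - C.S1 hq s v ∈ C.I := C.sub_P_mem_I hq (C.map_W (C.V1_le v.2))
    have h1 : (C.S1 hq s v : V) = S s v - (S s v - C.S1 hq s v) := by abel
    have h2 : C.P hq (c.δ (C.S1 hq s v)) = C.P hq (c.δ (S s v)) := by
      conv_lhs => rw [h1]
      rw [map_sub, map_sub, C.P_eq_zero hq (hδI _ hi), sub_zero]
    have h3 : C.P hq (X s (S s v)) = A s (C.S1 hq s v) := by
      have h4 := C.P_eq_zero hq (C.I_le_perp (hXI s _ hi))
      rw [map_sub, map_sub, sub_eq_zero, hXA] at h4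
      exact h4
    rw [h2, hc, map_add, map_add, map_sub, C.P_S hq hS s (hδW _ (C.V1_le v.2)),
      C.P_S hq hS s (hXp s _ (hWp (C.V1_le v.2))), hXA, h3]
    rfl

omit [Fintype J] [DecidableEq J] [DecidableEq ι] in
/-- **The Hessian lemma.** -/
theorem Conn.hess' [FiniteDimensional L V] {q : V →ₗ[L] V →ₗ[L] L} (c : Conn q)
    {S A B M : ι → End L V}
    (hc : ∀ s v, c.δ (S s v) = S s (c.δ v) + (A s (S s v) - S s (A s v)) + M s v)
    {D : End L V} (hD : ∀ s, D * S s = S s * D) (hDM : ∀ s, D * M s = M s * D) (hB : ∑ s, (B s * S s - S s * B s) = 0) :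
    ∑ s, LinearMap.trace L V
      (B s * (D * (A s * S s - S s * A s) - (A s * S s - S s * A s) * D)) = 0 := by
  let E : End L V :=
    { toFun := fun v => c.δ (D v) - D (c.δ v)
      map_add' := fun u v => by rw [map_add, map_add, map_add, map_add]; abel
      map_smul' := fun a v => by
        rw [map_smul, c.smul, c.smul, map_add, map_smul, map_smul, RingHom.id_apply, smul_sub]
        abel }
  have hE : ∀ s, E * S s - S s * E =
      (A s * S s - S s * A s) * D - D * (A s * S s - S s * A s) := by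
    intro s
    have hD' : ∀ v, D (S s v) = S s (D v) := fun v => LinearMap.congr_fun (hD s) v
    ext v
    have hDM' : D (M s v) = M s (D v) := LinearMap.congr_fun (hDM s) v
    show (c.δ (D (S s v)) - D (c.δ (S s v))) - S s (c.δ (D v) - D (c.δ v)) =
      (A s (S s (D v)) - S s (A s (D v))) - D (A s (S s v) - S s (A s v))
    rw [hD', hc, hc, map_add, map_add, hD', map_sub (S s), hDM']
    abel
  have h1 : ∀ s, LinearMap.trace L V
      (B s * (D * (A s * S s - S s * A s) - (A s * S s - S s * A s) * D)) =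
      LinearMap.trace L V ((B s * S s - S s * B s) * E) := by
    intro s
    have h2 : D * (A s * S s - S s * A s) - (A s * S s - S s * A s) * D =
        -(E * S s - S s * E) := by rw [hE]; abel
    rw [h2, mul_neg, mul_sub, ← mul_assoc, ← mul_assoc, map_neg, map_sub, sub_mul, map_sub,
      LinearMap.trace_mul_comm L (B s * E), ← mul_assoc]
    ring
  rw [Finset.sum_congr rfl fun s _ => h1 s, ← map_sum, ← Finset.sum_mul, hB, zero_mul, map_zero]

end conn2

end Vale.Agent.P182.H533
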