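import Vale.Agent.P182.H533.Form

/-!
# The core of a family of self-adjoint endomorphisms
-/

namespace Vale.Agent.P182.H533

open Module

section core

variable {L V : Type*} [Field L] [AddCommGroup V] [Module L V]

/-- the orthogonal complement -/
def perp (q : V →ₗ[L] V →ₗ[L] L) (W : Submodule L V) : Submodule L V where
  carrier := {v | ∀ w ∈ W, q v w = 0}
  add_mem' := fun {a b} ha hb w hw => by rw [map_add, LinearMap.add_apply, ha w hw, hb w hw, add_zero]
  zero_mem' := fun w _ => by rw [map_zero, LinearMap.zero_apply]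
  smul_mem' := fun c x hx w hw => by rw [map_smul, LinearMap.smul_apply, hx w hw, smul_zero]

theorem mem_perp {q : V →ₗ[L] V →ₗ[L] L} {W : Submodule L V} {v : V} :
    v ∈ perp q W ↔ ∀ w ∈ W, q v w = 0 := Iff.rfl

/-- the span of the images of the words of length `r` -/
def words {ι : Type*} (S : ι → End L V) : ℕ → Submodule L V
  | 0 => ⊤
  | r + 1 => ⨆ s, (words S r).map (S s)

theorem words_succ {ι : Type*} (S : ι → End L V) (r : ℕ) :
    words S (r + 1) = ⨆ s, (words S r).map (S s) := rfl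

theorem words_antitone {ι : Type*} (S : ι → End L V) : Antitone (words S) := by
  apply antitone_nat_of_succ_le
  intro r
  induction r with
  | zero => exact le_top
  | succ r ih =>
    rw [words_succ S (r + 1), words_succ S r]
    exact iSup_mono fun s => Submodule.map_mono ih

/-- The core of a family of self-adjoint endomorphisms: `W` the stable image, `V1` a complement
of its radical. -/
structure Core {ι : Type*} (q : V →ₗ[L] V →ₗ[L] L) (S : ι → End L V) where
  N : ℕ
  W : Submodule L V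
  hN : W = words S N
  hW : ⨆ s, W.map (S s) = W
  V1 : Submodule L V
  sup : V1 ⊔ (W ⊓ perp q W) = W
  disj : V1 ⊓ (W ⊓ perp q W) = ⊥

theorem exists_core [FiniteDimensional L V] {ι : Type*} (q : V →ₗ[L] V →ₗ[L] L)
    (S : ι → End L V) : Nonempty (Core q S) := by
  obtain ⟨N, hN⟩ := IsArtinian.monotone_stabilizes
    (⟨fun r => OrderDual.toDual (words S r), fun a b h => words_antitone S h⟩ :
      ℕ →o (Submodule L V)ᵒᵈ)
  have h1 : words S N = words S (N + 1) := hN (N + 1) (Nat.le_succ N)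
  obtain ⟨V1, h2, h3⟩ : ∃ V1 : Submodule L V, V1 ⊔ (words S N ⊓ perp q (words S N)) = words S N ∧
      V1 ⊓ (words S N ⊓ perp q (words S N)) = ⊥ := by
    obtain ⟨c, hc⟩ := exists_isCompl (words S N ⊓ perp q (words S N))
    refine ⟨c ⊓ words S N, ?_, ?_⟩
    · rw [sup_comm, ← sup_inf_assoc_of_le _ inf_le_left, hc.sup_eq_top, top_inf_eq]
    · rw [inf_right_comm, inf_comm c, hc.inf_eq_bot, bot_inf_eq]
  exact ⟨⟨N, words S N, rfl, by rw [← words_succ, ← h1], V1, h2, h3⟩⟩

namespace Core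

variable {ι : Type*} {q : V →ₗ[L] V →ₗ[L] L} {S : ι → End L V} (C : Core q S)

/-- the radical -/
def I : Submodule L V := C.W ⊓ perp q C.W

theorem V1_le : C.V1 ≤ C.W := le_sup_left.trans C.sup.le

theorem I_le : C.I ≤ C.W := inf_le_left

theorem I_le_perp : C.I ≤ perp q C.W := inf_le_right

theorem map_W {s : ι} {w : V} (hw : w ∈ C.W) : S s w ∈ C.W := by
  have : S s w ∈ ⨆ s, C.W.map (S s) :=
    Submodule.mem_iSup_of_mem s (Submodule.mem_map_of_mem hw)
  rwa [C.hW] at this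

theorem map_perp (hS : ∀ s, IsSA q (S s)) {s : ι} {v : V} (hv : v ∈ perp q C.W) :
    S s v ∈ perp q C.W := fun w hw => by rw [hS s, hv _ (C.map_W hw)]

theorem map_I (hS : ∀ s, IsSA q (S s)) {s : ι} {v : V} (hv : v ∈ C.I) : S s v ∈ C.I :=
  ⟨C.map_W hv.1, C.map_perp hS hv.2⟩

theorem I_ortho_W (hq : IsForm q) {i w : V} (hi : i ∈ C.I) (hw : w ∈ C.W) : q w i = 0 := by
  rw [hq.symm]; exact hi.2 w hw

/-- the form on `V1` -/
def q1 : C.V1 →ₗ[L] C.V1 →ₗ[L] L := q.domRestrict₁₂ C.V1 C.V1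

theorem q1_apply (u v : C.V1) : C.q1 u v = q u v := rfl

theorem exists_decomp {w : V} (hw : w ∈ C.W) : ∃ v ∈ C.V1, ∃ i ∈ C.I, v + i = w := by
  rw [← C.sup] at hw
  exact Submodule.mem_sup.mp hw

theorem isForm (hq : IsForm q) : IsForm C.q1 where
  symm := fun u v => hq.symm _ _
  nondeg := fun u hu => by
    have h1 : (u : V) ∈ V1 C ⊓ (C.W ⊓ perp q C.W) := by
      refine ⟨u.2, C.V1_le u.2, ?_⟩
      intro w hw
      obtain ⟨v, hv, i, hi, rfl⟩ := C.exists_decomp hw
      rw [map_add, hq.symm _ i, hi.2 _ (C.V1_le u.2), add_zero]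
      exact hu ⟨v, hv⟩
    rw [C.disj] at h1
    exact Subtype.ext ((Submodule.mem_bot L).mp h1)

variable [FiniteDimensional L V]

/-- the orthogonal projection to `V1` -/
noncomputable def P (hq : IsForm q) : V →ₗ[L] C.V1 :=
  (C.isForm hq).eqv.symm.toLinearMap ∘ₗ (q.domRestrict₁₂ ⊤ C.V1).comp
    (LinearMap.codRestrict ⊤ LinearMap.id fun _ => trivial)

theorem q_P (hq : IsForm q) (v : V) (u : C.V1) : C.q1 (C.P hq v) u = q v u := by
  rw [P, LinearMap.comp_apply, LinearEquiv.coe_coe, IsForm.eqv_symm_apply]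
  rfl

theorem P_coe (hq : IsForm q) (u : C.V1) : C.P hq u = u :=
  (C.isForm hq).ext fun w => by rw [q_P, q1_apply]

theorem P_eq_zero (hq : IsForm q) {v : V} (hv : v ∈ perp q C.W) : C.P hq v = 0 :=
  (C.isForm hq).nondeg _ fun w => by rw [q_P]; exact hv _ (C.V1_le w.2)

/-- vectors orthogonal to the radical -/
theorem sub_P_mem (hq : IsForm q) {v : V} (hv : v ∈ perp q C.I) :
    v - C.P hq v ∈ perp q C.W := by
  intro w hw
  obtain ⟨x, hx, i, hi, rfl⟩ := C.exists_decomp hw
  have h1 : q (C.P hq v) x = q v x := C.q_P hq v ⟨x, hx⟩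
  have h2 : q (C.P hq v) i = 0 := C.I_ortho_W hq hi (C.V1_le (C.P hq v).2)
  rw [map_sub, LinearMap.sub_apply, map_add, map_add, h1, h2, hv i hi]
  ring

theorem sub_P_mem_I (hq : IsForm q) {v : V} (hv : v ∈ C.W) : v - C.P hq v ∈ C.I := by
  refine ⟨Submodule.sub_mem _ hv (C.V1_le (C.P hq v).2), C.sub_P_mem hq fun i hi => ?_⟩
  exact C.I_ortho_W hq hi hv

/-- the restrictions to the core -/
noncomputable def S1 (hq : IsForm q) (s : ι) : End L C.V1 :=
  (C.P hq ∘ₗ S s) ∘ₗ C.V1.subtype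

theorem S1_apply (hq : IsForm q) (s : ι) (v : C.V1) : C.S1 hq s v = C.P hq (S s v) := rfl

theorem S1_SA (hq : IsForm q) (hS : ∀ s, IsSA q (S s)) (s : ι) : IsSA C.q1 (C.S1 hq s) := by
  intro u v
  rw [S1_apply, S1_apply, q_P, hS s, (C.isForm hq).symm, q_P, hq.symm]

theorem P_S (hq : IsForm q) (hS : ∀ s, IsSA q (S s)) (s : ι) {v : V} (hv : v ∈ perp q C.I) :
    C.P hq (S s v) = C.S1 hq s (C.P hq v) := by
  have h1 := C.P_eq_zero hq (C.map_perp hS (s := s) (C.sub_P_mem hq hv))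
  rw [map_sub, map_sub, sub_eq_zero] at h1
  rw [h1, S1_apply]

omit [FiniteDimensional L V] in
theorem W_le_perp (hq : IsForm q) : C.W ≤ perp q C.I := fun _ hw _ hi => C.I_ortho_W hq hi hw

theorem S1_span (hq : IsForm q) (hS : ∀ s, IsSA q (S s)) :
    ⨆ s, LinearMap.range (C.S1 hq s) = ⊤ := by
  rw [eq_top_iff]
  rintro v -
  have h1 : (v : V) ∈ ⨆ s, C.W.map (S s) := by rw [C.hW]; exact C.V1_le v.2
  have h2 : ∀ x ∈ ⨆ s, C.W.map (S s), C.P hq x ∈ ⨆ s, LinearMap.range (C.S1 hq s) := by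
    intro x hx
    refine Submodule.iSup_induction (fun s => C.W.map (S s))
      (motive := fun x => C.P hq x ∈ ⨆ s, LinearMap.range (C.S1 hq s)) hx ?_ ?_ ?_
    · rintro s _ ⟨w, hw, rfl⟩
      rw [C.P_S hq hS s (C.W_le_perp hq hw)]
      exact Submodule.mem_iSup_of_mem s ⟨_, rfl⟩
    · rw [map_zero]; exact Submodule.zero_mem _
    · intro x y hx hy
      rw [map_add]; exact Submodule.add_mem _ hx hy
  have h3 := h2 _ h1
  rwa [P_coe] at h3

omit [FiniteDimensional L V] in
/-- **The killing lemma.** -/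
theorem kill (hq : IsForm q) (hS : ∀ s, IsSA q (S s)) {Ψ : ι → End L V}
    (h1 : ∀ a, ∀ i ∈ C.I, ∀ v, q (Ψ a i) v = q i (Ψ a v))
    (h2 : ∀ a b v w, q v (Ψ a (S b w)) = q (Ψ b (S a v)) w) :
    ∀ a, ∀ i ∈ C.I, ∀ w ∈ C.W, q (Ψ a i) w = 0 := by
  have key : ∀ r : ℕ, ∀ i ∈ C.I, (∀ u ∈ words S r, q i u = 0) → ∀ a, ∀ w ∈ C.W,
      q (Ψ a i) w = 0 := by
    intro r
    induction r with
    | zero =>
      intro i _ hi a w _
      have : i = 0 := hq.nondeg i fun v => hi v trivial
      rw [this, map_zero, map_zero, LinearMap.zero_apply]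
    | succ r ih =>
      intro i hi hir a w hw
      rw [← C.hW] at hw
      refine Submodule.iSup_induction (fun s => C.W.map (S s))
        (motive := fun x => q (Ψ a i) x = 0) hw ?_ ?_ ?_
      · rintro s _ ⟨w, hw, rfl⟩
        rw [h1 a i hi, h2]
        refine ih _ (C.map_I hS hi) ?_ _ _ hw
        intro u hu
        rw [hS a]
        exact hir _ (Submodule.mem_iSup_of_mem a (Submodule.mem_map_of_mem hu))
      · rw [map_zero]
      · intro x y hx hy
        rw [map_add, hx, hy, add_zero]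
  intro a i hi w hw
  refine key C.N i hi ?_ a w hw
  intro u hu
  rw [← C.hN] at hu
  exact hi.2 u hu

end Core

end core

end Vale.Agent.P182.H533
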