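import Vale.Agent.P182.H533.Conn2
import Mathlib.LinearAlgebra.Eigenspace.Minpoly
import Mathlib.LinearAlgebra.Eigenspace.Triangularizable
import Mathlib.FieldTheory.IsAlgClosed.Basic

/-!
# The Hessian identity for a family satisfying the first order relations
-/

namespace Vale.Agent.P182.H533

open Module Matrix

section dich

variable {L V J ι : Type*} [Field L] [AddCommGroup V] [Module L V] [Fintype J] [DecidableEq J]
  [DecidableEq ι] (arm : J → ι)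

/-- the first order relations for a set of points -/
structure KRel (q : V →ₗ[L] V →ₗ[L] L) (Ω : Matrix J J L) (K : Set ((J → L) →ₗ[L] V)) : Prop where
  F1 : ∀ R ∈ K, ∀ R' ∈ K, ∀ x y, q (R x) (R' y) = q (R' x) (R y)
  F2 : ∀ R ∈ K, ∀ R' ∈ K, ∀ s, IsSA q (opr q R (Gm arm Ω s) R')

variable {arm}

theorem KRel.swap {q : V →ₗ[L] V →ₗ[L] L} (hq : IsForm q) {Ω : Matrix J J L} (hΩ : Ωᵀ = -Ω)
    {K : Set ((J → L) →ₗ[L] V)} (hK : KRel arm q Ω K) {R R' : (J → L) →ₗ[L] V} (hR : R ∈ K)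
    (hR' : R' ∈ K) (s : ι) : opr q R (Gm arm Ω s) R' = opr q R' (Gm arm Ω s) R := by
  ext v
  apply hq.ext
  intro w
  rw [hK.F2 R hR R' hR' s, hq.symm, opr_adj hq, Gm_transpose arm hΩ, hq.symm]

omit [Fintype J] in
theorem ad_comp {q : V →ₗ[L] V →ₗ[L] L} {T R : (J → L) →ₗ[L] V}
    (h : ∀ x y, q (R x) (T y) = q (T x) (R y)) (y : J → L) : ad q R (T y) = ad q T (R y) := by
  funext j
  rw [ad_apply, ad_apply, h]

theorem KRel.comp {q : V →ₗ[L] V →ₗ[L] L} (hq : IsForm q) {Ω : Matrix J J L}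
    {K : Set ((J → L) →ₗ[L] V)} (hK : KRel arm q Ω K) {R R' : (J → L) →ₗ[L] V} (hR : R ∈ K)
    (hR' : R' ∈ K) (T U : (J → L) →ₗ[L] V) (a b : ι) (v : V) :
    opr q T (Gm arm Ω b) R (opr q R' (Gm arm Ω a) U v) =
      opr q T (Gm arm Ω b) R' (opr q R (Gm arm Ω a) U v) := by
  rw [opr_apply, opr_apply, opr_apply, opr_apply, ad_comp (hK.F1 R hR R' hR')]

theorem KRel.compat {q : V →ₗ[L] V →ₗ[L] L} (hq : IsForm q) {Ω : Matrix J J L} (hΩ : Ωᵀ = -Ω)
    {K : Set ((J → L) →ₗ[L] V)} (hK : KRel arm q Ω K) {T R : (J → L) →ₗ[L] V} (hT : T ∈ K)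
    (hR : R ∈ K) : Compat q (Sop arm q T Ω) fun s => opr q T (Gm arm Ω s) R where
  sa := fun s => hK.F2 T hT R hR s
  rel := fun a b v => by
    show opr q T (Gm arm Ω b) R (opr q T (Gm arm Ω a) T v) =
      opr q T (Gm arm Ω b) T (opr q T (Gm arm Ω a) R v)
    rw [hK.comp hq hR hT, hK.swap hq hΩ hR hT]

theorem KRel.comm {q : V →ₗ[L] V →ₗ[L] L} (hq : IsForm q) {Ω : Matrix J J L} (hΩ : Ωᵀ = -Ω)
    {K : Set ((J → L) →ₗ[L] V)} (hK : KRel arm q Ω K) {T R R' : (J → L) →ₗ[L] V} (hT : T ∈ K)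
    (hR : R ∈ K) (hR' : R' ∈ K) (a b : ι) (v : V) :
    opr q T (Gm arm Ω b) R (opr q T (Gm arm Ω a) R' v) =
      opr q T (Gm arm Ω b) R' (opr q T (Gm arm Ω a) R v) := by
  rw [hK.comp hq hR hT, hK.comp hq hR' hT, hK.swap hq hΩ hR hR']

variable [Fintype ι]

/-- **The Hessian identity on the core.** -/
theorem KRel.hess [FiniteDimensional L V] {q : V →ₗ[L] V →ₗ[L] L} (hq : IsForm q)
    (h2 : (2 : L) ≠ 0) {Ω : Matrix J J L} (hΩ : Ωᵀ = -Ω) {K : Set ((J → L) →ₗ[L] V)}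
    (hK : KRel arm q Ω K) {T : (J → L) →ₗ[L] V} (hT : T ∈ K)
    (hreal : ∀ (X : ι → End L V) (η : Matrix J J L), (∀ s, IsSk q (X s)) → ηᵀ = -η →
      (∀ x, T (η *ᵥ x) + ∑ s, X s (T (Gm arm Ω s *ᵥ x)) = 0) →
      ∃ c : Conn q, ∃ R ∈ K, (∀ j, c.δ (T (Pi.single j 1)) =
        X (arm j) (T (Pi.single j 1)) + R (Pi.single j 1)) ∧ ∀ i j, c.d (Ω i j) = η i j)
    (C : Core q (Sop arm q T Ω)) {R0 : (J → L) →ₗ[L] V} (hR0 : R0 ∈ K) {D0 : End L C.V1}
    (hD0 : ∀ a, C.res hq (opr q T (Gm arm Ω a) R0) = C.S1 hq a * D0) {D : End L C.V1}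
    (hD : D ∈ Algebra.adjoin L {D0})
    {A B : ι → End L C.V1} (hA : ∀ s, IsSk C.q1 (A s))
    (hsA : ∑ s, (A s * C.S1 hq s - C.S1 hq s * A s) = 0)
    (hsB : ∑ s, (B s * C.S1 hq s - C.S1 hq s * B s) = 0) :
    ∑ s, LinearMap.trace L C.V1 (B s * (D * (A s * C.S1 hq s - C.S1 hq s * A s) -
      (A s * C.S1 hq s - C.S1 hq s * A s) * D)) = 0 := by
  have hSA := Sop_SA arm hq T hΩ
  obtain ⟨X, hX, hXI, hXA, η, hη, hTη⟩ := exists_lift arm hq h2 T hΩ C hA hsA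
  obtain ⟨c, R, hR, hc1, hc2⟩ := hreal X η hX hη hTη
  -- the operators
  have hcR := hK.compat hq hΩ hT hR
  have hc0 := hK.compat hq hΩ hT hR0
  obtain ⟨DR, hDRs, hDR1, hDR2⟩ := C.exists_D hq hSA hcR
  obtain ⟨D0', hD0s, hD01, hD02⟩ := C.exists_D hq hSA hc0
  have h0 : D0' = D0 := C.D_unique hq hSA fun a => by rw [← hD01, hD0]
  subst h0
  have hcomm : D0' * DR = DR * D0' := C.D_comm hq hSA hc0 hcR
    (fun a b v => hK.comm hq hΩ hT hR0 hR a b v) hD01 hD02 hDR1 hDR2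
  have hS0 : ∀ s, D0' * C.S1 hq s = C.S1 hq s * D0' := fun s => by rw [← hD02, ← hD01]
  -- extend to the algebra
  have hext : ∀ M : End L C.V1, D0' * M = M * D0' → D * M = M * D := by
    intro M hM
    have h1 : Algebra.adjoin L {D0'} ≤ Subalgebra.centralizer L {M} := by
      rw [Algebra.adjoin_le_iff, Set.singleton_subset_iff]
      rw [SetLike.mem_coe, Subalgebra.mem_centralizer_iff]
      intro g hg
      rw [Set.mem_singleton_iff.mp hg]
      exact hM.symm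
    exact ((Subalgebra.mem_centralizer_iff L).mp (h1 hD) M rfl).symm
  let M : ι → End L V := fun s => opr q R (Gm arm Ω s) T + opr q T (Gm arm Ω s) R
  have hM1 : ∀ s, M s = (2 : L) • opr q T (Gm arm Ω s) R := by
    intro s
    show opr q R (Gm arm Ω s) T + opr q T (Gm arm Ω s) R = _
    rw [hK.swap hq hΩ hR hT, two_smul]
  have hM2 : ∀ s, C.res hq (M s) = (2 : L) • (C.S1 hq s * DR) := by
    intro s
    rw [hM1, C.res_smul, ← hDR1]
  obtain ⟨c1, -, hc1'⟩ := C.exists_conn' hq hSA hX hXI hXA c (M := M) (by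
      intro s w hw
      rw [hM1]
      exact Submodule.smul_mem _ _ (C.W_le_perp hq (hcR.map_W C s hw)))
    (delta_Sop' arm T hΩ hX hη hTη c hc1 hc2)
  refine c1.hess' hc1' (fun s => hext _ (hS0 s)) (fun s => ?_) hsB
  rw [hM2, mul_smul_comm, smul_mul_assoc]
  congr 1
  refine hext _ ?_
  rw [← mul_assoc, hS0, mul_assoc, mul_assoc, hcomm]

end dich

end Vale.Agent.P182.H533
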