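import Vale.Agent.P182.H533.Core
import Mathlib.LinearAlgebra.Matrix.ToLin
import Mathlib.Tactic.NoncommRing

/-!
# The self-adjoint operators of a configuration
-/

namespace Vale.Agent.P182.H533

open Module Matrix

section mat

variable {L J ι : Type*} [Field L] [Fintype J] [DecidableEq J] [DecidableEq ι] (arm : J → ι)

/-- the projection to the columns of an arm -/
def Em (s : ι) : Matrix J J L := Matrix.diagonal fun j => if arm j = s then 1 else 0

/-- the commutator of the projection with the skew matrix -/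
def Gm (Ω : Matrix J J L) (s : ι) : Matrix J J L := Em arm s * Ω - Ω * Em arm s

theorem Em_mul (r s : ι) : (Em arm r * Em arm s : Matrix J J L) = if r = s then Em arm s else 0 := by
  rw [Em, Em, Matrix.diagonal_mul_diagonal]
  by_cases h : r = s
  · subst h
    rw [if_pos rfl]
    congr 1
    funext j
    split_ifs <;> simp
  · rw [if_neg h]
    ext i j
    by_cases hij : i = j
    · subst hij
      rw [Matrix.diagonal_apply_eq, Matrix.zero_apply]
      by_cases h1 : arm i = r
      · rw [if_neg (fun h2 => h (h1.symm.trans h2)), mul_zero]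
      · rw [if_neg h1, zero_mul]
    · rw [Matrix.diagonal_apply_ne _ hij, Matrix.zero_apply]

omit [Fintype J] in
theorem Em_transpose (s : ι) : (Em arm s : Matrix J J L)ᵀ = Em arm s := by
  rw [Em, Matrix.diagonal_transpose]

omit [Fintype J] in
theorem Em_sum [Fintype ι] : ∑ s, (Em arm s : Matrix J J L) = 1 := by
  ext i j
  rw [Matrix.sum_apply]
  by_cases h : i = j
  · subst h
    simp [Em]
  · rw [Matrix.one_apply_ne h]
    exact Finset.sum_eq_zero fun s _ => by rw [Em, Matrix.diagonal_apply_ne _ h]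

theorem Gm_transpose {Ω : Matrix J J L} (hΩ : Ωᵀ = -Ω) (s : ι) : (Gm arm Ω s)ᵀ = Gm arm Ω s := by
  rw [Gm, Matrix.transpose_sub, Matrix.transpose_mul, Matrix.transpose_mul, hΩ, Em_transpose]
  noncomm_ring

theorem Gm_sum [Fintype ι] (Ω : Matrix J J L) : ∑ s, Gm arm Ω s = 0 := by
  simp only [Gm]
  rw [Finset.sum_sub_distrib, ← Finset.sum_mul, ← Finset.mul_sum, Em_sum, one_mul, mul_one, sub_self]

theorem Em_Gm (Ω : Matrix J J L) (r s : ι) :
    Em arm r * Gm arm Ω s + Gm arm Ω r * Em arm s = if r = s then Gm arm Ω s else 0 := by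
  have : Em arm r * Gm arm Ω s + Gm arm Ω r * Em arm s =
      (Em arm r * Em arm s) * Ω - Ω * (Em arm r * Em arm s) := by
    rw [Gm, Gm]; noncomm_ring
  rw [this, Em_mul]
  split_ifs
  · rw [Gm]
  · rw [zero_mul, mul_zero, sub_zero]

theorem Gm_Em (Ω : Matrix J J L) (r s : ι) :
    Gm arm Ω s * Em arm r + Em arm s * Gm arm Ω r = if r = s then Gm arm Ω s else 0 := by
  rw [add_comm, Em_Gm]
  by_cases h : r = s
  · subst h; simp
  · rw [if_neg h, if_neg (Ne.symm h)]

end mat

section gram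

variable {L V J ι : Type*} [Field L] [AddCommGroup V] [Module L V] [Fintype J] [DecidableEq J]

/-- the adjoint of a map from a coordinate space -/
def ad (q : V →ₗ[L] V →ₗ[L] L) (T : (J → L) →ₗ[L] V) : V →ₗ[L] (J → L) :=
  LinearMap.pi fun j => q (T (Pi.single j 1))

omit [Fintype J] in
theorem ad_apply (q : V →ₗ[L] V →ₗ[L] L) (T : (J → L) →ₗ[L] V) (v : V) (j : J) :
    ad q T v j = q (T (Pi.single j 1)) v := rfl

theorem q_T (q : V →ₗ[L] V →ₗ[L] L) (T : (J → L) →ₗ[L] V) (x : J → L) (v : V) :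
    q (T x) v = x ⬝ᵥ ad q T v := by
  conv_lhs => rw [pi_eq_sum_univ' x]
  rw [map_sum, map_sum, LinearMap.sum_apply, dotProduct]
  refine Finset.sum_congr rfl fun j _ => ?_
  rw [ad_apply, map_smul, map_smul, LinearMap.smul_apply, smul_eq_mul]

/-- the operator `φ G ψ*` -/
def opr (q : V →ₗ[L] V →ₗ[L] L) (φ : (J → L) →ₗ[L] V) (G : Matrix J J L)
    (ψ : (J → L) →ₗ[L] V) : End L V := φ ∘ₗ G.mulVecLin ∘ₗ ad q ψ

theorem opr_apply (q : V →ₗ[L] V →ₗ[L] L) (φ : (J → L) →ₗ[L] V) (G : Matrix J J L)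
    (ψ : (J → L) →ₗ[L] V) (v : V) : opr q φ G ψ v = φ (G *ᵥ ad q ψ v) := rfl

theorem opr_adj {q : V →ₗ[L] V →ₗ[L] L} (hq : IsForm q) (φ ψ : (J → L) →ₗ[L] V)
    (G : Matrix J J L) (u v : V) : q (opr q φ G ψ u) v = q u (opr q ψ Gᵀ φ v) := by
  rw [opr_apply, opr_apply, hq.symm u, q_T, q_T, Matrix.mulVec_transpose, ← dotProduct_mulVec,
    dotProduct_comm]

end gram

end Vale.Agent.P182.H533
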