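import Vale.Agent.P182.H533.Gram

/-!
# Lifting infinitesimal symmetries from the core
-/

namespace Vale.Agent.P182.H533

open Module Matrix

section lift

variable {L V J ι : Type*} [Field L] [AddCommGroup V] [Module L V] [Fintype J] [DecidableEq J]
  [Fintype ι] [DecidableEq ι]

theorem sum_smulRight (y : (J → L) →ₗ[L] V) :
    y = ∑ k, (LinearMap.proj k).smulRight (y (Pi.single k 1)) := by
  ext k
  rw [LinearMap.comp_apply, LinearMap.comp_apply, LinearMap.sum_apply, LinearMap.single_apply,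
    Finset.sum_eq_single k]
  · rw [LinearMap.smulRight_apply, LinearMap.proj_apply, Pi.single_eq_same, one_smul]
  · intro j _ hj
    rw [LinearMap.smulRight_apply, LinearMap.proj_apply, Pi.single_eq_of_ne hj, zero_smul]
  · intro h; exact absurd (Finset.mem_univ _) h

/-- functionals on the space of maps are traces -/
theorem exists_trace [FiniteDimensional L V] {q : V →ₗ[L] V →ₗ[L] L} (hq : IsForm q)
    (f : ((J → L) →ₗ[L] V) →ₗ[L] L) :
    ∃ ψ : (J → L) →ₗ[L] V, ∀ y, f y = LinearMap.trace L V (y ∘ₗ ad q ψ) := by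
  let g : J → Dual L V := fun k =>
    { toFun := fun v => f ((LinearMap.proj k).smulRight v)
      map_add' := fun u v => by rw [← map_add]; congr 1; ext j; simp [smul_add]
      map_smul' := fun c v => by
        rw [RingHom.id_apply, ← map_smul]; congr 1; ext j; simp [smul_comm c] }
  let ψ : (J → L) →ₗ[L] V := ∑ k, (LinearMap.proj k).smulRight (hq.eqv.symm (g k))
  have hψ : ∀ k, ψ (Pi.single k 1) = hq.eqv.symm (g k) := by
    intro k
    simp only [ψ, LinearMap.sum_apply, LinearMap.smulRight_apply, LinearMap.proj_apply]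
    rw [Finset.sum_eq_single k]
    · rw [Pi.single_eq_same, one_smul]
    · intro j _ hj
      rw [Pi.single_eq_of_ne hj, zero_smul]
    · intro h; exact absurd (Finset.mem_univ _) h
  refine ⟨ψ, fun y => ?_⟩
  conv_lhs => rw [sum_smulRight y]
  conv_rhs => rw [sum_smulRight y]
  rw [map_sum]
  have : (∑ k, (LinearMap.proj k).smulRight (y (Pi.single k 1)) : (J → L) →ₗ[L] V) ∘ₗ ad q ψ =
      ∑ k, (q (ψ (Pi.single k 1))).smulRight (y (Pi.single k 1)) := by
    ext v
    simp only [LinearMap.comp_apply, LinearMap.sum_apply, LinearMap.smulRight_apply,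
      LinearMap.proj_apply, ad_apply]
  rw [this, map_sum]
  refine Finset.sum_congr rfl fun k _ => ?_
  rw [LinearMap.trace_smulRight, hψ, hq.eqv_symm_apply]
  rfl

theorem q_comm {q : V →ₗ[L] V →ₗ[L] L} (hq : IsForm q) {T ψ : (J → L) →ₗ[L] V}
    (h : ∀ a b, q (ψ (Pi.single a 1)) (T (Pi.single b 1)) =
      q (ψ (Pi.single b 1)) (T (Pi.single a 1))) (x y : J → L) :
    q (ψ x) (T y) = q (T x) (ψ y) := by
  have key : (q ∘ₗ ψ).compl₂ T = (q ∘ₗ T).compl₂ ψ := by
    apply LinearMap.pi_ext'
    intro a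
    ext b
    have := h a (b)
    simp only [LinearMap.comp_apply, LinearMap.compl₂_apply, LinearMap.single_apply]
    rw [h, hq.symm]
  exact LinearMap.congr_fun (LinearMap.congr_fun key x) y

variable (arm : J → ι)

/-- the operators `S_s` -/
def Sop (q : V →ₗ[L] V →ₗ[L] L) (T : (J → L) →ₗ[L] V) (Ω : Matrix J J L) (s : ι) : End L V :=
  opr q T (Gm arm Ω s) T

omit [Fintype ι] in
theorem Sop_SA {q : V →ₗ[L] V →ₗ[L] L} (hq : IsForm q) (T : (J → L) →ₗ[L] V)
    {Ω : Matrix J J L} (hΩ : Ωᵀ = -Ω) (s : ι) : IsSA q (Sop arm q T Ω s) := by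
  intro u v
  rw [Sop, opr_adj hq, Gm_transpose arm hΩ]

omit [Fintype ι] in
/-- the symmetry relation -/
theorem opr_rel {q : V →ₗ[L] V →ₗ[L] L} (hq : IsForm q) {T ψ : (J → L) →ₗ[L] V}
    {Ω : Matrix J J L} (hΩ : Ωᵀ = -Ω) (h : ∀ x y, q (ψ x) (T y) = q (T x) (ψ y)) (a b : ι)
    (v w : V) : q v (opr q T (Gm arm Ω a) ψ (Sop arm q T Ω b w)) =
      q (opr q T (Gm arm Ω b) ψ (Sop arm q T Ω a v)) w := by
  have h1 : ∀ y, q v (opr q T (Gm arm Ω a) ψ y) = q (opr q ψ (Gm arm Ω a) T v) y := by
    intro y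
    rw [opr_adj hq, Gm_transpose arm hΩ]
  rw [h1, opr_adj hq T ψ, Gm_transpose arm hΩ, opr_apply, Sop, opr_apply, h]
  rfl

/-- **The lifting lemma.** -/
theorem exists_lift [FiniteDimensional L V] {q : V →ₗ[L] V →ₗ[L] L} (hq : IsForm q)
    (h2 : (2 : L) ≠ 0)
    (T : (J → L) →ₗ[L] V) {Ω : Matrix J J L} (hΩ : Ωᵀ = -Ω) (C : Core q (Sop arm q T Ω))
    {A : ι → End L C.V1} (hA : ∀ s, IsSk C.q1 (A s))
    (hsum : ∑ s, (A s * C.S1 hq s - C.S1 hq s * A s) = 0) :
    ∃ X : ι → End L V, (∀ s, IsSk q (X s)) ∧ (∀ s, ∀ i ∈ C.I, X s i ∈ C.I) ∧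
      (∀ s, ∀ v : C.V1, C.P hq (X s v) = A s v) ∧ ∃ η : Matrix J J L, ηᵀ = -η ∧
        ∀ x, T (η *ᵥ x) + ∑ s, X s (T (Gm arm Ω s *ᵥ x)) = 0 := by
  classical
  let 𝒢 : Submodule L ((J → L) →ₗ[L] V) :=
    { carrier := {y | ∃ Y : ι → End L V, (∀ s, IsSk q (Y s)) ∧ (∀ s, ∀ i ∈ C.I, Y s i ∈ C.I) ∧
        (∀ s, ∀ v : C.V1, C.P hq (Y s v) = 0) ∧ ∃ η : Matrix J J L, ηᵀ = -η ∧
          ∀ x, y x = T (η *ᵥ x) + ∑ s, Y s (T (Gm arm Ω s *ᵥ x))}
      add_mem' := by
        rintro a b ⟨Y, h1, h2, h3, η, h4, h5⟩ ⟨Y', h1', h2', h3', η', h4', h5'⟩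
        refine ⟨Y + Y', ?_, ?_, ?_, η + η', ?_, ?_⟩
        · intro s u v
          simp only [Pi.add_apply, LinearMap.add_apply, map_add, h1 s u v, h1' s u v]
          ring
        · intro s i hi
          exact Submodule.add_mem _ (h2 s i hi) (h2' s i hi)
        · intro s v
          simp only [Pi.add_apply, LinearMap.add_apply, map_add, h3 s v, h3' s v, add_zero]
        · rw [Matrix.transpose_add, h4, h4', neg_add]
        · intro x
          rw [LinearMap.add_apply, h5, h5', Matrix.add_mulVec, map_add]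
          simp only [Pi.add_apply, LinearMap.add_apply, Finset.sum_add_distrib]
          abel
      zero_mem' := by
        refine ⟨0, ?_, ?_, ?_, 0, ?_, ?_⟩
        · intro s u v; simp
        · intro s i _; exact Submodule.zero_mem _
        · intro s v; simp
        · simp
        · intro x; simp
      smul_mem' := by
        rintro c a ⟨Y, h1, h2, h3, η, h4, h5⟩
        refine ⟨c • Y, ?_, ?_, ?_, c • η, ?_, ?_⟩
        · intro s u v
          simp only [Pi.smul_apply, LinearMap.smul_apply, map_smul, h1 s u v, smul_eq_mul]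
          ring
        · intro s i hi
          exact Submodule.smul_mem _ _ (h2 s i hi)
        · intro s v
          simp only [Pi.smul_apply, LinearMap.smul_apply, map_smul, h3 s v, smul_zero]
        · rw [Matrix.transpose_smul, h4, smul_neg]
        · intro x
          rw [LinearMap.smul_apply, h5, Matrix.smul_mulVec, map_smul, smul_add]
          simp only [Pi.smul_apply, LinearMap.smul_apply, Finset.smul_sum] }
  let A' : ι → End L V := fun s => C.V1.subtype ∘ₗ A s ∘ₗ C.P hq
  have hA' : ∀ s v, A' s v = (A s (C.P hq v) : V) := fun s v => rfl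
  let y0 : (J → L) →ₗ[L] V := ∑ s, A' s ∘ₗ T ∘ₗ (Gm arm Ω s).mulVecLin
  have hy0 : ∀ x, y0 x = ∑ s, A' s (T (Gm arm Ω s *ᵥ x)) := by
    intro x
    simp only [y0, LinearMap.sum_apply, LinearMap.comp_apply, Matrix.mulVecLin_apply]
  have main : y0 ∈ 𝒢 := by
    by_contra hy
    obtain ⟨f, hf0, hfle⟩ := Submodule.exists_le_ker_of_notMem hy
    obtain ⟨ψ, hψ⟩ := exists_trace hq f
    have hf : ∀ y ∈ 𝒢, LinearMap.trace L V (y ∘ₗ ad q ψ) = 0 := fun y hy => by
      rw [← hψ]; exact hfle hy
    -- symmetry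
    have e1 : ∀ a b, q (ψ (Pi.single a 1)) (T (Pi.single b 1)) =
        q (ψ (Pi.single b 1)) (T (Pi.single a 1)) := by
      intro a b
      have hmem : (T ∘ₗ (Matrix.single a b (1 : L) - Matrix.single b a 1).mulVecLin) ∈ 𝒢 := by
        refine ⟨0, ?_, ?_, ?_, Matrix.single a b (1 : L) - Matrix.single b a 1, ?_, ?_⟩
        · intro s u v; simp
        · intro s i _; exact Submodule.zero_mem _
        · intro s v; simp
        · rw [Matrix.transpose_sub, Matrix.transpose_single, Matrix.transpose_single, neg_sub]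
        · intro x; simp [Matrix.sub_mulVec]
      have h1 := hf _ hmem
      have h3 : (T ∘ₗ (Matrix.single a b (1 : L) - Matrix.single b a 1).mulVecLin) ∘ₗ ad q ψ =
          (q (ψ (Pi.single b 1))).smulRight (T (Pi.single a 1)) -
            (q (ψ (Pi.single a 1))).smulRight (T (Pi.single b 1)) := by
        ext v
        have h4 : ∀ (i j : J) (x : J → L), Matrix.single i j (1 : L) *ᵥ x =
            x j • Pi.single i (1 : L) := by
          intro i j x
          funext k
          by_cases hk : k = i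
          · subst hk
            simp [Matrix.mulVec, dotProduct, Matrix.single_apply]
          · simp [Matrix.mulVec, dotProduct, Pi.single_eq_of_ne hk, Ne.symm hk]
        simp only [LinearMap.comp_apply, Matrix.mulVecLin_apply, Matrix.sub_mulVec, map_sub, h4,
          LinearMap.sub_apply, LinearMap.smulRight_apply, map_smul, ad_apply]
      rw [h3, map_sub, LinearMap.trace_smulRight, LinearMap.trace_smulRight, sub_eq_zero] at h1
      exact h1.symm
    have hcomm := q_comm hq e1
    -- the operators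
    let Ψ : ι → End L V := fun a => opr q T (Gm arm Ω a) ψ
    have e3 : ∀ a b v w, q v (Ψ a (Sop arm q T Ω b w)) = q (Ψ b (Sop arm q T Ω a v)) w :=
      fun a b v w => opr_rel arm hq hΩ hcomm a b v w
    have e2 : ∀ a, ∀ i ∈ C.I, ∀ v, q (Ψ a i) v = q i (Ψ a v) := by
      intro a i hi v
      let X : End L V := (q i).smulRight v - (q v).smulRight i
      have hX : ∀ w, X w = q i w • v - q v w • i := fun w => rfl
      have hmem : (X ∘ₗ T ∘ₗ (Gm arm Ω a).mulVecLin) ∈ 𝒢 := by
        refine ⟨Pi.single a X, ?_, ?_, ?_, 0, by simp, ?_⟩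
        · intro s u w
          by_cases hs : s = a
          · subst hs
            rw [Pi.single_eq_same, hX, hX]
            simp only [map_sub, map_smul, LinearMap.sub_apply, LinearMap.smul_apply, smul_eq_mul]
            rw [hq.symm u v, hq.symm u i]
            ring
          · rw [Pi.single_eq_of_ne hs]; simp
        · intro s j hj
          by_cases hs : s = a
          · subst hs
            rw [Pi.single_eq_same, hX, hi.2 j (C.I_le hj), zero_smul, zero_sub]
            exact Submodule.neg_mem _ (Submodule.smul_mem _ _ hi)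
          · rw [Pi.single_eq_of_ne hs]; exact Submodule.zero_mem _
        · intro s u
          by_cases hs : s = a
          · subst hs
            rw [Pi.single_eq_same, hX, hi.2 _ (C.V1_le u.2), zero_smul, zero_sub, map_neg,
              map_smul, C.P_eq_zero hq hi.2, smul_zero, neg_zero]
          · rw [Pi.single_eq_of_ne hs]; simp
        · intro x
          rw [Matrix.zero_mulVec, map_zero, zero_add, Finset.sum_eq_single a]
          · rw [Pi.single_eq_same]; rfl
          · intro b _ hb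
            rw [Pi.single_eq_of_ne hb]; rfl
          · intro h; exact absurd (Finset.mem_univ _) h
      have h1 := hf _ hmem
      have h3 : (X ∘ₗ T ∘ₗ (Gm arm Ω a).mulVecLin) ∘ₗ ad q ψ =
          (q i ∘ₗ Ψ a).smulRight v - (q v ∘ₗ Ψ a).smulRight i := by
        ext w
        rfl
      rw [h3, map_sub, LinearMap.trace_smulRight, LinearMap.trace_smulRight, sub_eq_zero] at h1
      rw [hq.symm]
      exact h1.symm
    have hkill := C.kill hq (Sop_SA arm hq T hΩ) e2 e3
    -- restriction to the core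
    let R : ι → End L C.V1 := fun a => (C.P hq ∘ₗ Ψ a) ∘ₗ C.V1.subtype
    have hRa : ∀ a (v : C.V1), R a v = C.P hq (Ψ a v) := fun a v => rfl
    have hR : ∀ a b (v w : C.V1), C.q1 v (R a (C.S1 hq b w)) = C.q1 (R b (C.S1 hq a v)) w := by
      intro a b v w
      rw [hRa, hRa, (C.isForm hq).symm, C.q_P, C.q_P]
      have h5 : ∀ (c d : ι) (x y : C.V1), q (Ψ c (Sop arm q T Ω d x)) y =
          q (Ψ c (C.S1 hq d x)) y := by
        intro c d x y
        have h6 := hkill c _ (C.sub_P_mem_I hq (C.map_W (s := d) (C.V1_le x.2))) y (C.V1_le y.2)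
        rw [map_sub, map_sub, LinearMap.sub_apply, sub_eq_zero] at h6
        exact h6
      rw [← h5, ← h5, hq.symm, e3]
    obtain ⟨D, hD, hRD⟩ := exists_quot (C.isForm hq) (C.S1_SA hq (Sop_SA arm hq T hΩ))
      (C.S1_span hq (Sop_SA arm hq T hΩ)) hR
    have htr := trace_mul_sum (C.isForm hq) h2 hA (C.S1_SA hq (Sop_SA arm hq T hΩ)) hD hsum
    apply hf0
    rw [hψ]
    have h7 : y0 ∘ₗ ad q ψ = ∑ s, (C.V1.subtype ∘ₗ A s) ∘ₗ (C.P hq ∘ₗ Ψ s) := by
      ext v
      rw [LinearMap.comp_apply, hy0, LinearMap.sum_apply]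
      rfl
    rw [h7, map_sum]
    rw [← htr]
    refine Finset.sum_congr rfl fun s _ => ?_
    rw [LinearMap.trace_comp_comm']
    have h8 : (C.P hq ∘ₗ Ψ s) ∘ₗ C.V1.subtype ∘ₗ A s = R s * A s := rfl
    rw [h8, LinearMap.trace_mul_comm, hRD, mul_assoc]
  obtain ⟨Y, g1, g2, g3, η, g4, g5⟩ := main
  refine ⟨fun s => A' s - Y s, ?_, ?_, ?_, -η, ?_, ?_⟩
  · intro s u v
    have h1 : q (A' s u) v = - q u (A' s v) := by
      have h3 := hA s (C.P hq u) (C.P hq v)
      rw [(C.isForm hq).symm, C.q_P, C.q_P] at h3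
      rw [hA', hA', hq.symm, h3]
    simp only [LinearMap.sub_apply, map_sub, g1 s u v, h1]
    ring
  · intro s i hi
    rw [LinearMap.sub_apply, hA', C.P_eq_zero hq hi.2, map_zero]
    exact Submodule.sub_mem _ (Submodule.zero_mem _) (g2 s i hi)
  · intro s v
    rw [LinearMap.sub_apply, map_sub, g3, sub_zero, hA', C.P_coe, C.P_coe]
  · rw [Matrix.transpose_neg, g4]
  · intro x
    have h1 := g5 x
    rw [hy0] at h1
    simp only [LinearMap.sub_apply, Finset.sum_sub_distrib]
    rw [h1, Matrix.neg_mulVec, map_neg]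
    abel

end lift

end Vale.Agent.P182.H533
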