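import Vale.Agent.P182.H533.PF
import Vale.Agent.P182.H398.Stab
import Vale.Agent.P182.H534.C0b

/-!
# The blocks along the flows: `NB` and the difference of two flows

`Dat` : an admissible triple for two blocks; `nb_of` : a flow which preserves `I` and the blocks
modulo `I` satisfies `H534.NB`; `Dat.diff` : two flows of the same triple agree on the blocks
modulo the blocks.
-/

namespace Vale.Agent.P182.H533.C0

open Module Matrix Vale.Agent.P182.H533 Vale.Agent.P182.B1 Vale.Agent.P182.H922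
  Vale.Agent.P182.H578 Vale.Agent.P182.H588 Vale.Agent.P182.H181 Vale.Agent.P182.H983
  Vale.Agent.P182.H398 Vale.Agent.P182.H58.Glue7

universe u v w

section base

variable {L : Type u} {V : Type v} {J : Type w} [Field L] [AddCommGroup V] [Module L V]
  [Fintype J] [DecidableEq J] {𝒟 : Cfg L V J} {u : J → L} {t t' : J → V}
  {W I : Submodule L V} {N : ℕ} {U : Fin N → Submodule L V} {d : Fin N → L} {p : Fin 3 → ℕ}
  {x y : L}

omit [DecidableEq J] in
theorem om_rel {R t : J → V} {c : L} {w : V} (h : ∀ l, 𝒟.q (R l) w = c * 𝒟.q (t l) w) (l : J) :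
    𝒟.q (𝒟.om R l) w = c * 𝒟.q (𝒟.om t l) w := by
  simp only [Cfg.om, map_sum, map_smul, LinearMap.sum_apply, LinearMap.smul_apply, smul_eq_mul,
    h, Finset.mul_sum]
  exact Finset.sum_congr rfl fun k _ => by ring

theorem tm_mem (B : H983.Blk 𝒟 u t t' W I U d p) (x y : L) : tm t t' x y ∈ Ku 𝒟 u :=
  Submodule.add_mem _ (Submodule.smul_mem _ _ B.ht) (Submodule.smul_mem _ _ B.ht')

theorem q_tm (B : H983.Blk 𝒟 u t t' W I U d p) (x y : L) {k : Fin N} {w : V} (hw : w ∈ U k)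
    (l : J) : 𝒟.q (tm t t' x y l) w = (x + y * d k) * 𝒟.q (t l) w := by
  rw [tm, Pi.add_apply, Pi.smul_apply, Pi.smul_apply, map_add, map_smul, map_smul,
    LinearMap.add_apply, LinearMap.smul_apply, LinearMap.smul_apply, B.star k w hw, smul_eq_mul,
    smul_eq_mul]
  ring

theorem ku_rel (B : H983.Blk 𝒟 u t t' W I U d p) {R : J → V} (hR : R ∈ Ku 𝒟 u) :
    ∃ c : Fin N → L, ∀ k, ∀ w ∈ U k, ∀ l, 𝒟.q (R l) w = c k * 𝒟.q (t l) w := by
  obtain ⟨a, b, rfl⟩ := B.span R hR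
  exact ⟨fun k => a + b * d k, fun k w hw l => q_tm B a b hw l⟩

variable (hG : 𝒟.Good)
  (hK : KRel 𝒟.arm 𝒟.q 𝒟.Ω (Tt L '' (Ku 𝒟 u : Set (J → V))))

include hG hK in
theorem Res_tm (B : H983.Blk 𝒟 u t t' W I U d p) (x y : L) {k : Fin N} {w : V} (hw : w ∈ U k)
    (a : Fin 3) : Res 𝒟 (tm t t' x y) a w = (x + y * d k) ^ 2 • Res 𝒟 t a w := by
  have h0 := q_tm B x y hw
  have h1 : Res 𝒟 (tm t t' x y) a w =
      opr 𝒟.q (Tt L (tm t t' x y)) (Gm 𝒟.arm 𝒟.Ω a) (Tt L (tm t t' x y)) w := rfl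
  have h2 : opr 𝒟.q (Tt L t) (Gm 𝒟.arm 𝒟.Ω a) (Tt L t) w = Res 𝒟 t a w := rfl
  rw [h1, opr_of_rel h0, hK.swap hG.form hG.skew ⟨_, tm_mem B x y, rfl⟩ ⟨_, B.ht, rfl⟩ a,
    opr_of_rel h0, h2, smul_smul, sq]

include hG hK in
theorem Res_mem (B : H983.Blk 𝒟 u t t' W I U d p) (x y : L) {k : Fin N} {w : V} (hw : w ∈ U k)
    (a : Fin 3) : Res 𝒟 (tm t t' x y) a w ∈ U k := by
  rw [Res_tm hG hK B x y hw]
  exact (U k).smul_mem _ (B.sumU k ▸ Submodule.mem_iSup_of_mem a (Submodule.mem_map_of_mem hw))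

include hG hK in
theorem st_U (B : H983.Blk 𝒟 u t t' W I U d p) {x y : L} {k : Fin N} (hu : x + y * d k ≠ 0) :
    st (Res 𝒟 (tm t t' x y)) (U k) = U k := by
  apply le_antisymm
  · exact st_le fun a v hv => Res_mem hG hK B x y hv a
  · conv_lhs => rw [← B.sumU k]
    refine iSup_le fun a => ?_
    rintro _ ⟨v, hv, rfl⟩
    have h1 : Res 𝒟 t a v = ((x + y * d k) ^ 2)⁻¹ • Res 𝒟 (tm t t' x y) a v := by
      rw [Res_tm hG hK B x y hv, smul_smul, inv_mul_cancel₀ (pow_ne_zero 2 hu), one_smul]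
    rw [h1]
    exact Submodule.smul_mem _ _ (mem_st a hv)

include hG hK in
theorem res_I (B : H983.Blk 𝒟 u t t' W I U d p) (x y : L) {v : V} (hv : v ∈ I) (a : Fin 3) :
    Res 𝒟 (tm t t' x y) a v ∈ I := by
  have hIW : I ≤ W := B.I_eq ▸ inf_le_left
  have hSA : ∀ r : J → V, ∀ s, IsSA 𝒟.q (Res 𝒟 r s) := fun r s =>
    Sop_SA 𝒟.arm hG.form (Tt L r) hG.skew s
  have hW : ∀ w ∈ W, ∀ a, Res 𝒟 (tm t t' x y) a w ∈ W := by
    intro w hw a
    rw [← B.supU] at hw ⊢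
    refine Submodule.iSup_induction U (motive := fun w => Res 𝒟 (tm t t' x y) a w ∈ ⨆ k, U k) hw
      (fun k w hw => Submodule.mem_iSup_of_mem k (Res_mem hG hK B x y hw a)) ?_ ?_
    · rw [map_zero]; exact zero_mem _
    · intro w w' h h'
      rw [map_add]; exact add_mem h h'
  rw [B.I_eq] at hv ⊢
  refine ⟨hW v hv.1 a, fun w hw => ?_⟩
  rw [hSA]
  exact hv.2 _ (hW w hw a)

include hG hK in
theorem res_W (B : H983.Blk 𝒟 u t t' W I U d p) (x y : L) {v : V} (hv : v ∈ W) (a : Fin 3) :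
    Res 𝒟 (tm t t' x y) a v ∈ W := by
  rw [← B.supU] at hv ⊢
  refine Submodule.iSup_induction U (motive := fun w => Res 𝒟 (tm t t' x y) a w ∈ ⨆ k, U k) hv
    (fun k w hw => Submodule.mem_iSup_of_mem k (Res_mem hG hK B x y hw a)) ?_ ?_
  · rw [map_zero]; exact zero_mem _
  · intro w w' h h'
    rw [map_add]; exact add_mem h h'

theorem wo_mono (S : Fin 3 → End L V) {A A' : Submodule L V} (h : A ≤ A') (m : ℕ) :
    wo S A m ≤ wordsOn S A' m := by
  induction m with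
  | zero => exact h
  | succ m ih => exact iSup_mono fun a => Submodule.map_mono ih

include hG hK in
theorem nil_tm (B : H983.Blk 𝒟 u t t' W I U d p) (x y : L) :
    ∃ m, wo (Res 𝒟 (tm t t' x y)) I m = ⊥ := by
  obtain ⟨m, hm⟩ := B.nil
  refine ⟨m, ?_⟩
  have hIp : I ≤ perp 𝒟.q W := B.I_eq ▸ inf_le_right
  have hle : ∀ k m, wo (Res 𝒟 t) (U k ⊓ I) m ≤ U k := by
    intro k m
    induction m with
    | zero => exact inf_le_left
    | succ m ih =>
      refine iSup_le fun a => ?_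
      rintro _ ⟨v, hv, rfl⟩
      exact B.sumU k ▸ Submodule.mem_iSup_of_mem a (Submodule.mem_map_of_mem (ih hv))
  have key : ∀ m, wo (Res 𝒟 (tm t t' x y)) I m ≤ ⨆ k, wo (Res 𝒟 t) (U k ⊓ I) m := by
    intro m
    induction m with
    | zero => exact B.supI.ge
    | succ m ih =>
      refine iSup_le fun a => ?_
      rintro _ ⟨v, hv, rfl⟩
      refine Submodule.iSup_induction (fun k => wo (Res 𝒟 t) (U k ⊓ I) m)
        (motive := fun w => Res 𝒟 (tm t t' x y) a w ∈ ⨆ k, wo (Res 𝒟 t) (U k ⊓ I) (m + 1)) (ih hv)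
        (fun k w hw => ?_) ?_ ?_
      · rw [Res_tm hG hK B x y (hle k m hw)]
        exact Submodule.smul_mem _ _ (Submodule.mem_iSup_of_mem k (mem_wo_succ hw a))
      · rw [map_zero]; exact zero_mem _
      · intro w w' h h'
        rw [map_add]; exact add_mem h h'
  rw [eq_bot_iff, ← hm]
  exact (key m).trans (iSup_le fun k => wo_mono _ (inf_le_right.trans hIp) m)

/-- the pairing with the blocks -/
theorem dec_perp (B : H983.Blk 𝒟 u t t' W I U d p) (j : Fin N) {w : V}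
    (hw : w ∈ W) : ∃ z ∈ U j, w - z ∈ perp 𝒟.q (U j) := by
  rw [← B.supU] at hw
  refine Submodule.iSup_induction U (motive := fun w => ∃ z ∈ U j, w - z ∈ perp 𝒟.q (U j)) hw
    (fun k w hw => ?_) ⟨0, zero_mem _, by rw [sub_zero]; exact zero_mem _⟩ ?_
  · by_cases h : k = j
    · subst h
      exact ⟨w, hw, by rw [sub_self]; exact zero_mem _⟩
    · exact ⟨0, zero_mem _, by rw [sub_zero]; exact fun v hv => B.ortho k j h w hw v hv⟩
  · rintro w w' ⟨z, hz, h⟩ ⟨z', hz', h'⟩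
    refine ⟨z + z', add_mem hz hz', ?_⟩
    rw [add_sub_add_comm]
    exact add_mem h h'

/-- the adjoint of an admissible triple takes values in `U j` -/
theorem adj_range (hG : 𝒟.Good) [FiniteDimensional L V] {Uj : Submodule L V} {T T' : End L V}
    (hk : ∀ v ∈ perp 𝒟.q Uj, T v = 0) (hT' : ∀ v w, 𝒟.q (T' v) w = 𝒟.q v (T w)) (v : V) :
    T' v ∈ Uj := by
  have h1 : perp 𝒟.q (perp 𝒟.q Uj) = Uj := H62.perp_perp hG.form Uj
  rw [← h1]
  intro w hw
  rw [hT', hk w hw, map_zero]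

end base

section flow

variable {L : Type u} {V : Type v} {J : Type w} [Field L] [AddCommGroup V] [Module L V]
  [FiniteDimensional L V]
  [Fintype J] [DecidableEq J] {𝒟 : Cfg L V J} {u : J → L} {t t' : J → V}
  {W I : Submodule L V} {N : ℕ} {U : Fin N → Submodule L V} {d : Fin N → L} {p : Fin 3 → ℕ}
  {x y x' y' : L} {T T' : Fin 3 → End L V} {n n' : H533.Conn 𝒟.q} {R R' : J → V}

/-- the data of a pair: blocks `i`, `j`, an admissible triple `T` and its adjoint -/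
structure Dat (𝒟 : Cfg L V J) (u : J → L) (t t' : J → V) (W I : Submodule L V) {N : ℕ}
    (U : Fin N → Submodule L V) (d : Fin N → L) (p : Fin 3 → ℕ) (i j : Fin N)
    (T T' : Fin 3 → End L V) (x y : L) : Prop where
  good : 𝒟.Good
  krel : KRel 𝒟.arm 𝒟.q 𝒟.Ω (Tt L '' (Ku 𝒟 u : Set (J → V)))
  B : H983.Blk 𝒟 u t t' W I U d p
  ne : d i ≠ d j
  adm : Adm 𝒟.q (Res 𝒟 (tm t t' x y)) I (U i) (U j) T
  adj : ∀ a v w, 𝒟.q (T' a v) w = 𝒟.q v (T a w)
  u0 : ∀ k, x + y * d k ≠ 0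

variable {i j m : Fin N}

theorem Dat.skew (D : Dat 𝒟 u t t' W I U d p i j T T' x y) (a : Fin 3) :
    IsSk 𝒟.q ((T - T') a) := fun v w => by
  rw [Pi.sub_apply, LinearMap.sub_apply, LinearMap.sub_apply, map_sub, map_sub,
    LinearMap.sub_apply, D.adj, D.good.form.symm v (T' a w), D.adj, D.good.form.symm w (T a v)]
  ring

theorem Dat.IW (D : Dat 𝒟 u t t' W I U d p i j T T' x y) {e w : V} (he : e ∈ I) (hw : w ∈ W) :
    𝒟.q e w = 0 := by
  rw [D.B.I_eq] at he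
  exact he.2 w hw

theorem Dat.UW (D : Dat 𝒟 u t t' W I U d p i j T T' x y) (k : Fin N) : U k ≤ W :=
  D.B.supU ▸ le_iSup U k

/-- `T` kills the other blocks -/
theorem Dat.T_zero (D : Dat 𝒟 u t t' W I U d p i j T T' x y) {k : Fin N} (hk : k ≠ j) {v : V}
    (hv : v ∈ U k) (a : Fin 3) : T a v = 0 :=
  D.adm.ker a v fun w hw => D.B.ortho k j hk v hv w hw

theorem Dat.T_I (D : Dat 𝒟 u t t' W I U d p i j T T' x y) {v : V}
    (hv : v ∈ I) (a : Fin 3) : T a v = 0 :=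
  D.adm.ker a v fun w hw => D.IW hv (D.UW j hw)

theorem Dat.T'_mem (D : Dat 𝒟 u t t' W I U d p i j T T' x y) (a : Fin 3) (v : V) :
    T' a v ∈ U j := adj_range D.good (D.adm.ker a) (D.adj a) v

theorem Dat.T'_ker (D : Dat 𝒟 u t t' W I U d p i j T T' x y) {v : V}
    (hv : v ∈ perp 𝒟.q (U i)) (a : Fin 3) : T' a v = 0 :=
  D.good.form.nondeg _ fun w => by rw [D.adj]; exact hv _ (D.adm.range a w)

theorem Dat.T'_zero (D : Dat 𝒟 u t t' W I U d p i j T T' x y) {k : Fin N} (hk : k ≠ i) {v : V}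
    (hv : v ∈ U k) (a : Fin 3) : T' a v = 0 :=
  D.T'_ker (fun w hw => D.B.ortho k i hk v hv w hw) a

theorem Dat.T'_I (D : Dat 𝒟 u t t' W I U d p i j T T' x y) {v : V}
    (hv : v ∈ I) (a : Fin 3) : T' a v = 0 :=
  D.T'_ker (fun w hw => D.IW hv (D.UW i hw)) a

theorem Dat.S_mem (D : Dat 𝒟 u t t' W I U d p i j T T' x y) {k : Fin N} {v : V}
    (hv : v ∈ U k) (a : Fin 3) : Res 𝒟 (tm t t' x y) a v ∈ U k :=
  Res_mem D.good D.krel D.B x y hv a

theorem Dat.S_SA (D : Dat 𝒟 u t t' W I U d p i j T T' x y) (a : Fin 3) :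
    IsSA 𝒟.q (Res 𝒟 (tm t t' x y) a) :=
  Sop_SA 𝒟.arm D.good.form (Tt L _) D.good.skew a

/-- `[Y a, S a] W ≤ I` -/
theorem Dat.YS (D : Dat 𝒟 u t t' W I U d p i j T T' x y) (a : Fin 3) {w : V} (hw : w ∈ W) :
    (T a - T' a) (Res 𝒟 (tm t t' x y) a w) - Res 𝒟 (tm t t' x y) a ((T a - T' a) w) ∈ I := by
  refine adm_YS (W := W) D.good.form D.S_SA (fun x hx w hw => D.IW hx hw) (fun x hx h => ?_)
    (fun a w hw => res_W D.good D.krel D.B x y hw a) (fun w hw => dec_perp D.B j hw)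
    (fun a w hw v hv => ?_) D.adm D.adj (fun a v => D.UW j (D.T'_mem a v)) a hw
  · rw [D.B.I_eq]
    exact ⟨hx, h⟩
  · rw [D.S_SA]
    exact hw _ (D.S_mem hv a)

/-- the commutation rule -/
theorem Dat.rule (D : Dat 𝒟 u t t' W I U d p i j T T' x y)
    (F : FlowAt 𝒟 u t t' I U T T' x y n R) {k : Fin N} {v : V} (hv : v ∈ U k) (a : Fin 3) :
    n.δ (Res 𝒟 (tm t t' x y) a v) - Res 𝒟 (tm t t' x y) a (n.δ v) -
      ((T a - T' a) (Res 𝒟 (tm t t' x y) a v) - Res 𝒟 (tm t t' x y) a ((T a - T' a) v)) ∈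
      U k := by
  obtain ⟨c, hc⟩ := ku_rel D.B F.memR
  have h1 : ∀ l, 𝒟.q (R l) v = (c k * (x + y * d k)⁻¹) * 𝒟.q (tm t t' x y l) v := by
    intro l
    rw [hc k v hv, q_tm D.B x y hv]
    field_simp [D.u0 k]
  have h2 := flow_hn' D.good D.krel n (Y := T - T') D.skew (tm_mem D.B x y) F.memR F.tau F.om
    h1 a
  rw [Pi.sub_apply] at h2
  rw [h2]
  exact (U k).smul_mem _ (D.S_mem hv a)

/-- the flow maps a block `m` with `d m ≠ d j` to `U m + (U j ⊓ I)` -/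
theorem Dat.move_i (D : Dat 𝒟 u t t' W I U d p i j T T' x y)
    (F : FlowAt 𝒟 u t t' I U T T' x y n R) (hm : m ≠ j) :
    ∀ v ∈ U m, n.δ v ∈ U m ⊔ U j ⊓ I := by
  refine words_ind (S := Res 𝒟 (tm t t' x y)) (I := I) (m := n.δ) (Z := U m ⊔ U j ⊓ I)
    (st_U D.good D.krel D.B (D.u0 m)).ge (nil_tm D.good D.krel D.B x y) ?_ (fun v hv => ?_)
    (fun v hv a => ?_)
  · intro a v hv
    obtain ⟨b, hb, c, hc, rfl⟩ := Submodule.mem_sup.mp hv
    rw [map_add]
    exact Submodule.add_mem_sup (D.S_mem hb a) ⟨D.S_mem hc.1 a, res_I D.good D.krel D.B x y hc.2 a⟩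
  · exact (sup_le (le_sup_left.trans le_sup_left) le_sup_right :
      U m ⊔ I ≤ U m ⊔ U j ⊓ I ⊔ I) (F.blk m v hv)
  · have h1 := D.rule F hv a
    have h2 := D.YS a (D.UW m hv)
    have h3 : (T a - T' a) (Res 𝒟 (tm t t' x y) a v) -
        Res 𝒟 (tm t t' x y) a ((T a - T' a) v) ∈ U j := by
      rw [LinearMap.sub_apply, LinearMap.sub_apply, D.T_zero hm hv, D.T_zero hm (D.S_mem hv a),
        zero_sub, zero_sub, map_neg]
      exact sub_mem (neg_mem (D.T'_mem a _)) (neg_mem (D.S_mem (D.T'_mem a _) a))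
    have h4 := Submodule.add_mem_sup h1 (Submodule.mem_inf.mpr ⟨h3, h2⟩)
    rwa [sub_add_cancel] at h4

/-- the flow maps `U j` to `U j + (U i ⊓ I)` -/
theorem Dat.move_j (D : Dat 𝒟 u t t' W I U d p i j T T' x y)
    (F : FlowAt 𝒟 u t t' I U T T' x y n R) :
    ∀ v ∈ U j, n.δ v ∈ U j ⊔ U i ⊓ I := by
  have hji : j ≠ i := fun h => D.ne (by rw [h])
  refine words_ind (S := Res 𝒟 (tm t t' x y)) (I := I) (m := n.δ) (Z := U j ⊔ U i ⊓ I)
    (st_U D.good D.krel D.B (D.u0 j)).ge (nil_tm D.good D.krel D.B x y) ?_ (fun v hv => ?_)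
    (fun v hv a => ?_)
  · intro a v hv
    obtain ⟨b, hb, c, hc, rfl⟩ := Submodule.mem_sup.mp hv
    rw [map_add]
    exact Submodule.add_mem_sup (D.S_mem hb a) ⟨D.S_mem hc.1 a, res_I D.good D.krel D.B x y hc.2 a⟩
  · exact (sup_le (le_sup_left.trans le_sup_left) le_sup_right :
      U j ⊔ I ≤ U j ⊔ U i ⊓ I ⊔ I) (F.blk j v hv)
  · have h1 := D.rule F hv a
    have h2 := D.YS a (D.UW j hv)
    have h3 : (T a - T' a) (Res 𝒟 (tm t t' x y) a v) -
        Res 𝒟 (tm t t' x y) a ((T a - T' a) v) ∈ U i := by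
      rw [LinearMap.sub_apply, LinearMap.sub_apply, D.T'_zero hji hv,
        D.T'_zero hji (D.S_mem hv a), sub_zero, sub_zero]
      exact sub_mem (D.adm.range a _) (D.S_mem (D.adm.range a _) a)
    have h4 := Submodule.add_mem_sup h1 (Submodule.mem_inf.mpr ⟨h3, h2⟩)
    rwa [sub_add_cancel] at h4

/-- the data at the second point -/
theorem Dat.swap (D : Dat 𝒟 u t t' W I U d p i j T T' x y)
    (hu' : ∀ k, x' + y' * d k ≠ 0) (hi : x' + y' * d i = -(x + y * d i))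
    (hj : x' + y' * d j = x + y * d j) : Dat 𝒟 u t t' W I U d p i j T T' x' y' := by
  have hS : ∀ k, (x' + y' * d k) ^ 2 = (x + y * d k) ^ 2 → ∀ v ∈ U k, ∀ a,
      Res 𝒟 (tm t t' x' y') a v = Res 𝒟 (tm t t' x y) a v := fun k hk v hv a => by
    rw [Res_tm D.good D.krel D.B x' y' hv, Res_tm D.good D.krel D.B x y hv, hk]
  have hSi := hS i (by rw [hi, neg_sq])
  have hSj := hS j (by rw [hj])
  have hSA : ∀ a, IsSA 𝒟.q (Res 𝒟 (tm t t' x' y') a) := fun a =>
    Sop_SA 𝒟.arm D.good.form (Tt L _) D.good.skew a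
  have hTS : ∀ a v, T a (Res 𝒟 (tm t t' x' y') a v) = T a (Res 𝒟 (tm t t' x y) a v) := by
    intro a v
    rw [← sub_eq_zero, ← map_sub]
    refine D.adm.ker a _ fun w hw => ?_
    rw [map_sub, LinearMap.sub_apply, hSA, D.S_SA, hSj w hw, sub_self]
  refine ⟨D.good, D.krel, D.B, D.ne, ⟨D.adm.range, D.adm.ker, ?_, fun a v hv => ?_⟩, D.adj, hu'⟩
  · rw [← D.adm.sum]
    refine Finset.sum_congr rfl fun a _ => LinearMap.ext fun v => ?_
    rw [LinearMap.sub_apply, LinearMap.sub_apply, Module.End.mul_apply, Module.End.mul_apply,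
      Module.End.mul_apply, Module.End.mul_apply, hSi _ (D.adm.range a v), hTS]
  · rw [hSi _ (D.adm.range a v), hSj v hv]
    exact D.adm.comm a v hv

/-- **G7b** for the pair: the two flows agree on every block with the same squares, modulo it -/
theorem Dat.diff (D : Dat 𝒟 u t t' W I U d p i j T T' x y)
    (D' : Dat 𝒟 u t t' W I U d p i j T T' x' y')
    (F : FlowAt 𝒟 u t t' I U T T' x y n R) (F' : FlowAt 𝒟 u t t' I U T T' x' y' n' R')
    (hi : (x' + y' * d i) ^ 2 = (x + y * d i) ^ 2) (hj : (x' + y' * d j) ^ 2 = (x + y * d j) ^ 2)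
    (hm : d m = d i ∨ m = j) : ∀ v ∈ U m, n.δ v - n'.δ v ∈ U m := by
  have hji : j ≠ i := fun h => D.ne (by rw [h])
  have hS : ∀ k, (x' + y' * d k) ^ 2 = (x + y * d k) ^ 2 → ∀ v ∈ U k, ∀ a,
      Res 𝒟 (tm t t' x' y') a v = Res 𝒟 (tm t t' x y) a v := fun k hk v hv a => by
    rw [Res_tm D.good D.krel D.B x' y' hv, Res_tm D.good D.krel D.B x y hv, hk]
  have hSi := hS i hi
  have hSj := hS j hj
  have hSm := hS m (by rcases hm with h | h <;> rw [h] <;> assumption)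
  -- the range of the second flow
  have hr : ∀ v ∈ U m, ∀ a, Res 𝒟 (tm t t' x' y') a (n'.δ v) =
      Res 𝒟 (tm t t' x y) a (n'.δ v) := by
    intro v hv a
    by_cases h : m = j
    · subst h
      obtain ⟨b, hb, c, hc, h1⟩ := Submodule.mem_sup.mp (D'.move_j F' v hv)
      rw [← h1, map_add, map_add, hSj b hb, hSi c hc.1]
    · obtain ⟨b, hb, c, hc, h1⟩ := Submodule.mem_sup.mp (D'.move_i F' h v hv)
      rw [← h1, map_add, map_add, hSm b hb, hSj c hc.1]
  intro v hv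
  have := words_ind (S := Res 𝒟 (tm t t' x y)) (I := I) (m := n.δ - n'.δ) (Z := U m)
    (st_U D.good D.krel D.B (D.u0 m)).ge (nil_tm D.good D.krel D.B x y)
    (fun a v hv => D.S_mem hv a) (fun v hv => sub_mem (F.blk m v hv) (F'.blk m v hv))
    (fun v hv a => ?_) v hv
  · exact this
  · have h1 := D.rule F hv a
    have h2 := D'.rule F' hv a
    have e1 : (T a - T' a) v ∈ U i ⊔ U j := by
      rw [LinearMap.sub_apply, sub_eq_add_neg]
      exact Submodule.add_mem_sup (D.adm.range a v) (neg_mem (D.T'_mem a v))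
    have e2 : Res 𝒟 (tm t t' x' y') a ((T a - T' a) v) =
        Res 𝒟 (tm t t' x y) a ((T a - T' a) v) := by
      obtain ⟨b, hb, c, hc, h1⟩ := Submodule.mem_sup.mp e1
      rw [← h1, map_add, map_add, hSi b hb, hSj c hc]
    rw [hSm v hv, hr v hv a, e2] at h2
    have h3 := sub_mem h1 h2
    convert h3 using 1
    rw [AddMonoidHom.sub_apply, AddMonoidHom.sub_apply, map_sub]
    abel

end flow

section nb

variable {L : Type u} {V : Type v} {J : Type w} [Field L] [AddCommGroup V] [Module L V]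
  [FiniteDimensional L V]
  [Fintype J] [DecidableEq J] {𝒟 : Cfg L V J} {u : J → L} {t t' : J → V}
  {W I : Submodule L V} {N : ℕ} {U : Fin N → Submodule L V} {d : Fin N → L} {p : Fin 3 → ℕ}
  {x y x' y' : L} {T T' : Fin 3 → End L V} {n n' : H533.Conn 𝒟.q} {R R' : J → V}
  {i j m : Fin N}

/-- the flow preserves the other blocks -/
theorem Dat.move_k (D : Dat 𝒟 u t t' W I U d p i j T T' x y)
    (F : FlowAt 𝒟 u t t' I U T T' x y n R) (hi : m ≠ i) (hj : m ≠ j) :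
    ∀ v ∈ U m, n.δ v ∈ U m := by
  refine words_ind (S := Res 𝒟 (tm t t' x y)) (I := I) (m := n.δ) (Z := U m)
    (st_U D.good D.krel D.B (D.u0 m)).ge (nil_tm D.good D.krel D.B x y)
    (fun a v hv => D.S_mem hv a) (F.blk m) (fun v hv a => ?_)
  have h1 := D.rule F hv a
  rw [LinearMap.sub_apply, LinearMap.sub_apply, D.T_zero hj hv, D.T_zero hj (D.S_mem hv a),
    D.T'_zero hi hv, D.T'_zero hi (D.S_mem hv a), sub_zero, map_zero, sub_zero, sub_zero] at h1
  exact h1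

/-- the commutation rule on `U j` -/
theorem Dat.rule_j (D : Dat 𝒟 u t t' W I U d p i j T T' x y)
    (F : FlowAt 𝒟 u t t' I U T T' x y n R) (a : Fin 3) {v : V} (hv : v ∈ U j) :
    n.δ (Res 𝒟 (tm t t' x y) a v) - Res 𝒟 (tm t t' x y) a (n.δ v) -
      (T a (Res 𝒟 (tm t t' x y) a v) - Res 𝒟 (tm t t' x y) a (T a v)) ∈ U j := by
  have hji : j ≠ i := fun h => D.ne (by rw [h])
  have h1 := D.rule F hv a
  rwa [LinearMap.sub_apply, LinearMap.sub_apply, D.T'_zero hji hv,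
    D.T'_zero hji (D.S_mem hv a), sub_zero, sub_zero] at h1

/-- **`NB` from the preservation of `I` and of the blocks modulo `I`.** -/
theorem Dat.nb (D : Dat 𝒟 u t t' W I U d p i j T T' x y)
    (F : FlowAt 𝒟 u t t' I U T T' x y n R) : H534.NB I U i j n.δ where
  mapI := F.mapI
  mapUj := D.move_j F
  mapUi := D.move_i F fun h => D.ne (by rw [h])
  mapUk m hi hj := D.move_k F hi hj

/-- **`NB` for both flows, and their differences.** -/
theorem Dat.nb2 (D : Dat 𝒟 u t t' W I U d p i j T T' x y) (hu' : ∀ k, x' + y' * d k ≠ 0)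
    (hi' : x' + y' * d i = -(x + y * d i)) (hj' : x' + y' * d j = x + y * d j)
    (F : FlowAt 𝒟 u t t' I U T T' x y n R) (F' : FlowAt 𝒟 u t t' I U T T' x' y' n' R') :
    H534.NB I U i j n.δ ∧ H534.NB I U i j n'.δ ∧ (∀ v ∈ U j, n.δ v - n'.δ v ∈ U j) ∧
      ∀ v ∈ U i, n.δ v - n'.δ v ∈ U i := by
  have D' := D.swap hu' hi' hj'
  have h1 : (x' + y' * d i) ^ 2 = (x + y * d i) ^ 2 := by rw [hi', neg_sq]
  have h2 : (x' + y' * d j) ^ 2 = (x + y * d j) ^ 2 := by rw [hj']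
  exact ⟨D.nb F, D'.nb F', D.diff D' F F' h1 h2 (Or.inr rfl), D.diff D' F F' h1 h2 (Or.inl rfl)⟩

end nb

end Vale.Agent.P182.H533.C0
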