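import Vale.Agent.P182.H983.GDef

/-!
# Pairs of flows: the common interface of the two halves of (C0b)
-/

namespace Vale.Agent.P182.H533.C0

open Module Matrix Vale.Agent.P182.H533 Vale.Agent.P182.B1 Vale.Agent.P182.H922
  Vale.Agent.P182.H578 Vale.Agent.P182.H588 Vale.Agent.P182.H181 Vale.Agent.P182.H983

universe u v w

variable {L : Type u} {V : Type v} {J : Type w} [Field L] [AddCommGroup V] [Module L V]
  [Fintype J] [DecidableEq J]

omit [DecidableEq J] in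
/-- the derivative of a pair of families `z` with second family `r`, correction `Z` -/
def dy (𝒟 : Cfg L V J) (n : H533.Conn 𝒟.q) (Y Z : Fin 3 → End L V) (t : J → V)
    (z : (J → V) × (J → V)) (r : J → V) : (J → V) × (J → V) :=
  (fun l => n.δ (z.1 l) - Y (𝒟.arm l) (z.1 l - r l) - Z (𝒟.arm l) (t l),
    fun l => n.δ (z.2 l) - Y (𝒟.arm l) (z.2 l - 𝒟.om r l) - Z (𝒟.arm l) (𝒟.om t l))

/-- a flow of the triple `Y = T - T'` at the base point `tm t t' x y` -/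
structure FlowAt (𝒟 : Cfg L V J) (u : J → L) (t t' : J → V) (I : Submodule L V) {N : ℕ}
    (U : Fin N → Submodule L V) (T T' : Fin 3 → End L V) (x y : L) (n : H533.Conn 𝒟.q)
    (R : J → V) : Prop where
  memR : R ∈ Ku 𝒟 u
  tau : ∀ l, n.δ (tm t t' x y l) = (T (𝒟.arm l) - T' (𝒟.arm l)) (tm t t' x y l) + R l
  om : ∀ l, n.δ (𝒟.om (tm t t' x y) l) =
    (T (𝒟.arm l) - T' (𝒟.arm l)) (𝒟.om (tm t t' x y) l) + 𝒟.om R l
  mapI : ∀ v ∈ I, n.δ v ∈ I
  blk : ∀ k, ∀ v ∈ U k, n.δ v ∈ U k ⊔ I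

/-- two flows of the same triple, at two base points: the correction `Z` changes its sign -/
structure PairFlow (𝒟 : Cfg L V J) (u : J → L) (t t' : J → V) (W I : Submodule L V) {N : ℕ}
    (U : Fin N → Submodule L V) (T T' : Fin 3 → End L V) (x y x' y' : L)
    (n : H533.Conn 𝒟.q) (R : J → V) (n' : H533.Conn 𝒟.q) (R' : J → V) : Prop where
  F : FlowAt 𝒟 u t t' I U T T' x y n R
  F' : FlowAt 𝒟 u t t' I U T T' x' y' n' R'
  main : ∀ r ∈ Uu V u, ∀ Γ, RelG 𝒟 W I t Γ r → ∀ z, InN 𝒟 z r → ∃ Z : Fin 3 → End L V,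
    (∃ α β : L, ∀ a, Z a - α • T a - β • T' a ∈ Ten 𝒟.q I W) ∧
    dy 𝒟 n (T - T') Z t z r ∈ WF 𝒟 t W I u ∧ dy 𝒟 n' (T - T') (-Z) t z r ∈ WF 𝒟 t W I u

end Vale.Agent.P182.H533.C0
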